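import Vale.Agent.P146.Sx.Gap5
import Vale.Agent.P146.Ub.Fin

/-!
# P146 / Sx: the upper tail of the SK free energy at low temperature

With `p` the limit of `E F_n / n`: `E exp (x (F_n - n p)) ≤ exp (C n x⁶)` for `0 < x ≤ 1`, hence
`P(F_n ≥ n (p + s)) ≤ exp (-a n s^(6/5))` for `0 ≤ s ≤ 1`, and the variance is at most
`C n^(44/45) (1 + log n)`.
-/

open MeasureTheory ProbabilityTheory Filter Topology

namespace Vale.Agent.P146.Sx

open Vale.Agent.P157.Par (Path Exponents)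
open Vale.Agent.P146.Gap (SKpar)
open Vale.Agent.P146.Sk (PSK)
open Vale.Agent.P146.Ub

/-- The exponential moment is at most the Parisi value, up to `C x⁵`. -/
theorem fin_moment5 {β : ℝ} (hβ : 1 ≤ β) : ∃ C : ℝ, 0 ≤ C ∧ ∀ (n : ℕ), 1 ≤ n → ∀ x : ℝ, 0 < x →
    x ≤ 1 → ∀ (K : ℕ) (m q : ℕ → ℝ), Exponents K m → Path K q → q K ≤ 1 →
      Real.log (∫ g, Real.exp (x * freeEnergy n β g) ∂(disorder n)) / (x * n) -
        Real.log 2 - C * x ^ 5 ≤ PSK β K m q := by
  obtain ⟨C, hC, h⟩ := Pw2.exp_ge5_par hβ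
  refine ⟨C, hC, fun n hn x hx hx1 K m q hm hq hq1 => ?_⟩
  have hn0 : (0 : ℝ) < n := by exact_mod_cast hn
  refine le_of_forall_pos_le_add fun e he => ?_
  obtain ⟨K', m', q', hm', hxm, hq', hq'0, hq'1, hc⟩ := h x hx hx1 K m q hm hq hq1 e he
  have hG := guerra (by linarith : 0 < β) hn hm' hq' hq'0 hq'1 hx hxm
  have h1 : Real.log (∫ g, Real.exp (x * freeEnergy n β g) ∂(disorder n)) / (x * n) ≤
      Real.log 2 + SKpar β K' m' q' := by
    rw [div_le_iff₀ (by positivity)]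
    linarith
  rw [fin_PSK]
  linarith

/-- The values of the Parisi functional. -/
def vals (β : ℝ) : Set ℝ :=
  {y | ∃ (K : ℕ) (m q : ℕ → ℝ), Exponents K m ∧ Path K q ∧ q K ≤ 1 ∧ y = PSK β K m q}

/-- The Parisi value. -/
noncomputable def pv (β : ℝ) : ℝ := Real.log 2 + sInf (vals β)

theorem vals_nonempty (β : ℝ) : (vals β).Nonempty := by
  refine ⟨_, 0, fun l => if l = 0 then 0 else 1, fun _ => 0, ⟨if_pos rfl, ?_, ?_⟩,
    ⟨le_rfl, fun _ _ => le_rfl⟩, zero_le_one, rfl⟩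
  · simp
  · intro l hl
    have : l = 0 := by omega
    subst this
    simp

theorem integrable_exp (n : ℕ) (β x : ℝ) :
    Integrable (fun g => Real.exp (x * freeEnergy n β g)) (disorder n) :=
  ((Cv.lin_freeEnergy n β).const_mul x).dom_exp.integrable

instance (n : ℕ) : IsProbabilityMeasure (disorder n) := by unfold disorder; infer_instance

/-- The facts on the Parisi value. -/
theorem moment {β : ℝ} (hβ : 1 ≤ β) : ∃ C : ℝ, 1 ≤ C ∧
    (∀ n : ℕ, 1 ≤ n → ∀ x : ℝ, 0 < x → x ≤ 1 →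
      Real.log (∫ g, Real.exp (x * freeEnergy n β g) ∂(disorder n)) ≤
        x * (n * pv β) + C * n * x ^ 6) ∧
    (∀ n : ℕ, 1 ≤ n → ∫ g, freeEnergy n β g ∂(disorder n) ≤ n * pv β) ∧
    (∀ n : ℕ, 1 ≤ n → n * pv β ≤ ∫ g, freeEnergy n β g ∂(disorder n) +
      C * (n : ℝ) ^ (35 / 36 : ℝ)) := by
  obtain ⟨C₁, hC₁, h1⟩ := fin_moment5 hβ
  obtain ⟨C₂, hC₂, h2⟩ := rate_lower' (by linarith : 0 < β)
  have hbdd : BddBelow (vals β) := by
    refine ⟨Real.log (∫ g, Real.exp (1 * freeEnergy 1 β g) ∂(disorder 1)) / (1 * ((1 : ℕ) : ℝ)) -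
        Real.log 2 - C₁ * 1 ^ 5, ?_⟩
    rintro y ⟨K, m, q, hm, hq, hq1, rfl⟩
    exact h1 1 le_rfl 1 one_pos le_rfl K m q hm hq hq1
  have hmom : ∀ n : ℕ, 1 ≤ n → ∀ x : ℝ, 0 < x → x ≤ 1 →
      Real.log (∫ g, Real.exp (x * freeEnergy n β g) ∂(disorder n)) ≤
        x * (n * pv β) + C₁ * n * x ^ 6 := by
    intro n hn x hx hx1
    have hn0 : (0 : ℝ) < n := by exact_mod_cast hn
    have h3 : Real.log (∫ g, Real.exp (x * freeEnergy n β g) ∂(disorder n)) / (x * n) -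
        Real.log 2 - C₁ * x ^ 5 ≤ sInf (vals β) := by
      refine le_csInf (vals_nonempty β) ?_
      rintro y ⟨K, m, q, hm, hq, hq1, rfl⟩
      exact h1 n hn x hx hx1 K m q hm hq hq1
    have h4 : Real.log (∫ g, Real.exp (x * freeEnergy n β g) ∂(disorder n)) / (x * n) ≤
        pv β + C₁ * x ^ 5 := by
      unfold pv; linarith
    rw [div_le_iff₀ (by positivity)] at h4
    refine h4.trans (le_of_eq ?_)
    ring
  refine ⟨max 1 (max C₁ C₂), le_max_left _ _, ?_, ?_, ?_⟩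
  · intro n hn x hx hx1
    refine (hmom n hn x hx hx1).trans ?_
    have hn0 : (0 : ℝ) < n := by exact_mod_cast hn
    have : C₁ * n * x ^ 6 ≤ max 1 (max C₁ C₂) * n * x ^ 6 := by
      gcongr
      exact (le_max_left _ _).trans (le_max_right _ _)
    linarith
  · intro n hn
    have hn0 : (0 : ℝ) < n := by exact_mod_cast hn
    -- Jensen
    have hJ : ∀ x : ℝ, 0 < x → x ≤ 1 → ∫ g, freeEnergy n β g ∂(disorder n) ≤
        n * pv β + C₁ * n * x ^ 5 := by
      intro x hx hx1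
      have hI := integrable_exp n β x
      have hF : Integrable (fun g => x * freeEnergy n β g) (disorder n) :=
        ((Cv.lin_freeEnergy n β).const_mul x).dom.integrable
      have j1 := Cv.exp_integral_le hF hI
      have j2 : x * ∫ g, freeEnergy n β g ∂(disorder n) ≤
          Real.log (∫ g, Real.exp (x * freeEnergy n β g) ∂(disorder n)) := by
        rw [integral_const_mul] at j1
        rw [Real.le_log_iff_exp_le (lt_of_lt_of_le (Real.exp_pos _) j1)]
        exact j1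
      have j3 := j2.trans (hmom n hn x hx hx1)
      have j4 : x * ∫ g, freeEnergy n β g ∂(disorder n) ≤ x * (n * pv β + C₁ * n * x ^ 5) := by
        refine j3.trans (le_of_eq ?_)
        ring
      exact le_of_mul_le_mul_left j4 hx
    refine le_of_forall_pos_le_add fun e he => ?_
    set x := min 1 (e / (C₁ * n + 1)) with hx
    have hx0 : 0 < x := lt_min one_pos (by positivity)
    have hx1 : x ≤ 1 := min_le_left _ _
    refine (hJ x hx0 hx1).trans ?_
    have k1 : x ^ 5 ≤ x := pow_le_of_le_one hx0.le hx1 (by norm_num)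
    have k2 : x * (C₁ * n + 1) ≤ e := by
      have := min_le_right 1 (e / (C₁ * n + 1))
      rw [← hx, le_div_iff₀ (by positivity)] at this
      exact this
    have k3 : C₁ * n * x ^ 5 ≤ C₁ * n * x := mul_le_mul_of_nonneg_left k1 (by positivity)
    nlinarith
  · intro n hn
    have h3 := h2 (sInf (vals β)) (fun K m q hm hq hq1 =>
      csInf_le hbdd ⟨K, m, q, hm, hq, hq1, rfl⟩) n (by omega)
    have e : (1 - 1 / 36 : ℝ) = 35 / 36 := by norm_num
    rw [e] at h3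
    refine h3.trans ?_
    have h4 : 0 ≤ (n : ℝ) ^ (35 / 36 : ℝ) := by positivity
    have h5 : C₂ * (n : ℝ) ^ (35 / 36 : ℝ) ≤ max 1 (max C₁ C₂) * (n : ℝ) ^ (35 / 36 : ℝ) :=
      mul_le_mul_of_nonneg_right ((le_max_right _ _).trans (le_max_right _ _)) h4
    linarith

/-- The limit of the free energy per spin. -/
theorem tendsto_of {p C : ℝ} {a : ℕ → ℝ} (h1 : ∀ n : ℕ, 1 ≤ n → a n ≤ n * p)
    (h2 : ∀ n : ℕ, 1 ≤ n → n * p ≤ a n + C * (n : ℝ) ^ (35 / 36 : ℝ)) :
    Tendsto (fun n : ℕ => a n / n) atTop (𝓝 p) := by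
  have h3 : Tendsto (fun n : ℕ => p - C * (n : ℝ) ^ (-(1 / 36) : ℝ)) atTop (𝓝 p) := by
    have e : Tendsto (fun n : ℕ => (n : ℝ) ^ (-(1 / 36) : ℝ)) atTop (𝓝 0) :=
      (tendsto_rpow_neg_atTop (by norm_num)).comp tendsto_natCast_atTop_atTop
    have := (e.const_mul C).const_sub p
    simpa using this
  refine tendsto_of_tendsto_of_tendsto_of_le_of_le' h3 tendsto_const_nhds ?_ ?_
  · filter_upwards [eventually_ge_atTop 1] with n hn
    have hn0 : (0 : ℝ) < n := by exact_mod_cast hn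
    have h4 := h2 n hn
    rw [le_div_iff₀ hn0]
    have e : (n : ℝ) ^ (-(1 / 36) : ℝ) * n = (n : ℝ) ^ (35 / 36 : ℝ) := by
      nth_rewrite 2 [← Real.rpow_one (n : ℝ)]
      rw [← Real.rpow_add hn0]
      norm_num
    have e2 : (p - C * (n : ℝ) ^ (-(1 / 36) : ℝ)) * n =
        n * p - C * ((n : ℝ) ^ (-(1 / 36) : ℝ) * n) := by ring
    rw [e2, e]
    linarith
  · filter_upwards [eventually_ge_atTop 1] with n hn
    have hn0 : (0 : ℝ) < n := by exact_mod_cast hn
    rw [div_le_iff₀ hn0]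
    linarith [h1 n hn]

/-- Chernoff's bound. -/
theorem chernoff {n : ℕ} {β x v B : ℝ} (hx : 0 ≤ x)
    (h : Real.log (∫ g, Real.exp (x * freeEnergy n β g) ∂(disorder n)) ≤ B) :
    (disorder n).real {g | v ≤ freeEnergy n β g} ≤ Real.exp (B - x * v) := by
  have h1 := measure_ge_le_exp_mul_mgf (μ := disorder n) (X := freeEnergy n β) v hx
    (integrable_exp n β x)
  have hpos : 0 < mgf (freeEnergy n β) (disorder n) x := mgf_pos (integrable_exp n β x)
  have h2 : mgf (freeEnergy n β) (disorder n) x ≤ Real.exp B := by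
    rw [← Real.log_le_iff_le_exp hpos]
    exact h
  calc _ ≤ Real.exp (-x * v) * mgf (freeEnergy n β) (disorder n) x := h1
    _ ≤ Real.exp (-x * v) * Real.exp B := mul_le_mul_of_nonneg_left h2 (Real.exp_pos _).le
    _ = Real.exp (B - x * v) := by rw [← Real.exp_add]; congr 1; ring

/-- The tail at the scale `n^(1/6)`. -/
theorem tail_one {n : ℕ} (hn : 1 ≤ n) {β p C t : ℝ}
    (h : ∀ x : ℝ, 0 < x → x ≤ 1 →
      Real.log (∫ g, Real.exp (x * freeEnergy n β g) ∂(disorder n)) ≤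
        x * (n * p) + C * n * x ^ 6) :
    (disorder n).real {g | n * p + t * (n : ℝ) ^ (1 / 6 : ℝ) ≤ freeEnergy n β g} ≤
      Real.exp (C - t) := by
  have hn1 : (1 : ℝ) ≤ n := by exact_mod_cast hn
  have hn0 : (0 : ℝ) < n := by linarith
  set y : ℝ := (n : ℝ) ^ (1 / 6 : ℝ) with hy
  have hy1 : 1 ≤ y := Real.one_le_rpow hn1 (by norm_num)
  have hy0 : 0 < y := by linarith
  have hy6 : y ^ 6 = n := by
    rw [hy, ← Real.rpow_natCast, ← Real.rpow_mul hn0.le]
    norm_num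
  have h1 := h (1 / y) (by positivity) (by rw [div_le_one hy0]; exact hy1)
  refine (chernoff (x := 1 / y) (by positivity) h1).trans (Real.exp_le_exp.2 (le_of_eq ?_))
  have e1 : C * n * (1 / y) ^ 6 = C := by
    rw [← hy6]; field_simp
  have e2 : 1 / y * (t * y) = t := by field_simp
  rw [mul_add, e2, e1]
  ring

/-- The large deviations, exponent `6/5`. -/
theorem tail_dev {C : ℝ} (hC : 1 ≤ C) : ∃ a : ℝ, 0 < a ∧ ∀ (n : ℕ) (β p s : ℝ), 1 ≤ n →
    (∀ x : ℝ, 0 < x → x ≤ 1 →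
      Real.log (∫ g, Real.exp (x * freeEnergy n β g) ∂(disorder n)) ≤
        x * (n * p) + C * n * x ^ 6) → 0 ≤ s → s ≤ 1 →
    (disorder n).real {g | n * (p + s) ≤ freeEnergy n β g} ≤
      Real.exp (-(a * n * s ^ (6 / 5 : ℝ))) := by
  set κ : ℝ := 1 / (2 * C) with hκ
  have hκ0 : 0 < κ := by positivity
  have hκ1 : κ ≤ 1 := by rw [hκ, div_le_one (by positivity)]; linarith
  have hκC : C * κ ^ 5 ≤ 1 / 2 := by
    have e1 : κ ^ 5 ≤ κ := pow_le_of_le_one hκ0.le hκ1 (by norm_num)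
    have e2 : C * κ = 1 / 2 := by rw [hκ]; field_simp
    have := mul_le_mul_of_nonneg_left e1 (by linarith : 0 ≤ C)
    linarith
  refine ⟨κ / 2, by positivity, ?_⟩
  intro n β p s hn h hs hs1
  have hn0 : (0 : ℝ) < n := by exact_mod_cast hn
  rcases hs.eq_or_lt with rfl | hs0
  · rw [Real.zero_rpow (by norm_num), mul_zero, neg_zero, Real.exp_zero]
    exact measureReal_le_one
  set y : ℝ := s ^ (1 / 5 : ℝ) with hy
  have hy0 : 0 < y := Real.rpow_pos_of_pos hs0 _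
  have hy1 : y ≤ 1 := Real.rpow_le_one hs hs1 (by norm_num)
  have hy5 : y ^ 5 = s := by
    rw [hy, ← Real.rpow_natCast, ← Real.rpow_mul hs]
    norm_num
  have hy6 : s ^ (6 / 5 : ℝ) = y ^ 6 := by
    rw [hy, ← Real.rpow_natCast, ← Real.rpow_mul hs]
    norm_num
  have h1 := h (κ * y) (by positivity) (by nlinarith)
  refine (chernoff (x := κ * y) (by positivity) h1).trans (Real.exp_le_exp.2 ?_)
  rw [hy6]
  have e1 : κ * y * (n * p) + C * n * (κ * y) ^ 6 - κ * y * (n * (p + s)) =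
      (n * κ * y ^ 6) * (C * κ ^ 5) - n * κ * y * s := by ring
  have e2 : n * κ * y * s = n * κ * y ^ 6 := by rw [← hy5]; ring
  rw [e1, e2]
  have e3 : (n * κ * y ^ 6) * (C * κ ^ 5) ≤ (n * κ * y ^ 6) * (1 / 2) :=
    mul_le_mul_of_nonneg_left hκC (by positivity)
  linarith

/-- The bound of the variance. -/
theorem var_upper5 {β : ℝ} (hβ : 1 ≤ β) : ∃ C : ℝ, ∀ n : ℕ, 1 ≤ n →
    Var[freeEnergy n β; disorder n] ≤ C * (n : ℝ) ^ (44 / 45 : ℝ) * (1 + Real.log n) := by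
  obtain ⟨C, hC, hmom, -, hlow⟩ := moment hβ
  refine ⟨4 * C + β ^ 2, fun n hn => ?_⟩
  have hn1 : (1 : ℝ) ≤ n := by exact_mod_cast hn
  have hn0 : (0 : ℝ) < n := by linarith
  set y : ℝ := (n : ℝ) ^ (1 / 180 : ℝ) with hy
  have hy1 : 1 ≤ y := Real.one_le_rpow hn1 (by norm_num)
  have hy0 : 0 < y := by linarith
  set Y : ℝ := (n : ℝ) ^ (44 / 45 : ℝ) with hY
  have hY1 : 1 ≤ Y := Real.one_le_rpow hn1 (by norm_num)
  have hYy : Y * y ^ 4 = n := by
    rw [hY, hy, ← Real.rpow_natCast, ← Real.rpow_mul hn0.le, ← Real.rpow_add hn0]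
    norm_num
  have hy2 : (n : ℝ) ^ (35 / 36 : ℝ) = Y / y := by
    rw [hY, hy, ← Real.rpow_sub hn0]
    norm_num
  set x : ℝ := 1 / y with hx
  have hx0 : 0 < x := by positivity
  have hx1 : x ≤ 1 := by rw [hx, div_le_one hy0]; exact hy1
  have hexp : ∫ g, Real.exp (x * freeEnergy n β g) ∂(disorder n) ≤
      Real.exp (x * (∫ g, freeEnergy n β g ∂(disorder n)) + x ^ 2 * (4 * C * Y) / 2) := by
    rcases le_or_gt (∫ g, Real.exp (x * freeEnergy n β g) ∂(disorder n)) 0 with h0 | h0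
    · exact h0.trans (Real.exp_pos _).le
    rw [← Real.log_le_iff_le_exp h0]
    refine (hmom n hn x hx0 hx1).trans ?_
    have h1 := mul_le_mul_of_nonneg_left (hlow n hn) hx0.le
    have h2 : x * (C * (n : ℝ) ^ (35 / 36 : ℝ)) = x ^ 2 * (C * Y) := by
      rw [hy2, hx]; field_simp
    have h3 : C * n * x ^ 6 = x ^ 2 * (C * Y) := by
      rw [← hYy, hx]; field_simp
    rw [mul_add, h2] at h1
    rw [h3]
    linarith
  have hV := (Cv.var_freeEnergy_le n β hx0 hexp (u := 1 / n) (by positivity)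
    (by rw [div_le_one hn0]; exact hn1)).2
  refine hV.trans ?_
  have h1 : β ^ 2 * n / 2 * (1 / n) = β ^ 2 / 2 := by field_simp
  have h2 : -Real.log (1 / (n : ℝ)) = Real.log n := by rw [one_div, Real.log_inv, neg_neg]
  have hl0 : 0 ≤ Real.log n := Real.log_nonneg hn1
  rw [h1, h2]
  have hb : 0 ≤ β ^ 2 := sq_nonneg β
  have h3 : β ^ 2 ≤ β ^ 2 * Y := by nlinarith
  have h4 : 0 ≤ 4 * C * Y := by positivity
  have h5 : 0 ≤ β ^ 2 * Y * Real.log n := by positivity
  nlinarith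

end Vale.Agent.P146.Sx
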