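import Vale.Agent.P146.Gap.GoodStep

/-!
# P146 / Sx: the second invariant of the Parisi flow

`-(log F'')'' ≥ 2 c F''` with a constant `c` which does not depend on the exponents: the constant
decays at most by the factor `exp (-2 s)` along a step of variance `s`.
-/

open MeasureTheory ProbabilityTheory Filter Topology Set

namespace Vale.Agent.P146.Gap

open Vale.Agent.P157.Par

variable {C g c : ℝ} {F : ℝ → ℝ}

theorem inv_bet_eq (c g : ℝ) (G : ℝ → ℝ) (x : ℝ) :
    bet c G x = bet g G x - 2 * (c - g) * iteratedDeriv 2 G x := by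
  unfold bet; ring

/-- Monotonicity in the coefficient. -/
theorem inv_mono (h : Adm C F) {c c' : ℝ} (hc : c' ≤ c) (hb : ∀ x, 0 ≤ bet c F x) :
    ∀ x, 0 ≤ bet c' F x := by
  intro x
  have h1 := hb x
  rw [inv_bet_eq c c'] at h1
  have h2 := h.pos x
  nlinarith [mul_nonneg (sub_nonneg.2 hc) h2.le]

/-- The step when the exponent is small. -/
theorem inv_step (h : Adm C F) (hc0 : 0 < c) (hc1 : c ≤ 1) (hb : ∀ x, 0 ≤ bet c F x) (hg : 0 < g)
    {s : ℝ} (hs : 0 ≤ s) (hgc : g ≤ c * Real.exp (-(2 * s))) :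
    ∀ x, 0 ≤ bet (c * Real.exp (-(2 * s))) (gstep g s F) x := by
  have hexp1 : Real.exp (-(2 * s)) ≤ 1 := Real.exp_le_one_iff.2 (by linarith)
  have hg1 : g ≤ 1 := by
    calc g ≤ c * Real.exp (-(2 * s)) := hgc
      _ ≤ 1 * 1 := mul_le_mul hc1 hexp1 (Real.exp_pos _).le zero_le_one
      _ = 1 := one_mul 1
  rcases hs.eq_or_lt with rfl | hs0
  · intro x
    rw [gstep_zero hg.ne']
    simpa using hb x
  obtain ⟨B, hB0, hB1, hB2⟩ := beta_bound h hg hg1 s
  have hsm : ∀ t, SmB (gstep g t F) := fun t => smB_gstep h.smb hg t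
  -- the coefficient
  have hk0 : ∀ t ∈ Icc 0 s, 0 ≤ c * Real.exp (-(2 * t)) - g := by
    intro t ht
    have h1 : Real.exp (-(2 * s)) ≤ Real.exp (-(2 * t)) :=
      Real.exp_le_exp.2 (by linarith [ht.2])
    have := mul_le_mul_of_nonneg_left h1 hc0.le
    linarith
  have hk1 : ∀ t ∈ Icc 0 s, c * Real.exp (-(2 * t)) - g ≤ 1 := by
    intro t ht
    have h1 : Real.exp (-(2 * t)) ≤ 1 := Real.exp_le_one_iff.2 (by linarith [ht.1])
    have := mul_le_mul hc1 h1 (Real.exp_pos _).le zero_le_one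
    linarith
  have hu : ∀ t ∈ Icc 0 s, ∀ x, 0 < iteratedDeriv 2 (gstep g t F) x ∧
      iteratedDeriv 2 (gstep g t F) x ≤ 1 := by
    intro t ht x
    have hA := h.step hg hg1 ht.1
    exact ⟨hA.pos x, by nlinarith [hA.le1 x, sq_nonneg (iteratedDeriv 1 (gstep g t F) x)]⟩
  have main := maxp_line (S := s) (B := B + 2)
    (w := fun t x => bet g (gstep g t F) x
      - 2 * (c * Real.exp (-(2 * t)) - g) * iteratedDeriv 2 (gstep g t F) x)
    (ws := fun t x => (1 / 2 * beta_pp g (gstep g t F) x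
        - Yf g (gstep g t F) x * betp g (gstep g t F) x
        - (g * iteratedDeriv 2 (gstep g t F) x + bet g (gstep g t F) x)
          * bet g (gstep g t F) x)
        - ((2 * (-(2 * (c * Real.exp (-(2 * t)))))) * iteratedDeriv 2 (gstep g t F) x
          + 2 * (c * Real.exp (-(2 * t)) - g) * (1 / 2 * iteratedDeriv 4 (gstep g t F) x
            + g * (iteratedDeriv 2 (gstep g t F) x ^ 2
              + iteratedDeriv 1 (gstep g t F) x * iteratedDeriv 3 (gstep g t F) x))))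
    (wx := fun t x => betp g (gstep g t F) x
      - 2 * (c * Real.exp (-(2 * t)) - g) * iteratedDeriv 3 (gstep g t F) x)
    (wxx := fun t x => beta_pp g (gstep g t F) x
      - 2 * (c * Real.exp (-(2 * t)) - g) * iteratedDeriv 4 (gstep g t F) x)
    (b := fun t x => - Yf g (gstep g t F) x)
    (c := fun t x => -(g * iteratedDeriv 2 (gstep g t F) x + bet g (gstep g t F) x
      + 2 * (c * Real.exp (-(2 * t)) - g) * iteratedDeriv 2 (gstep g t F) x))
    hs0 ?_ ?_ ?_ ?_ ?_ ?_ ?_ ?_ ?_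
  · intro x
    have h1 := main s ⟨hs, le_rfl⟩ x
    rw [inv_bet_eq _ g]
    exact h1
  · -- continuity
    refine (beta_cont h hg hg1 s).sub ?_
    refine ContinuousOn.mul ?_ (fj_cont h.smb hg 2).continuousOn
    exact Continuous.continuousOn (by fun_prop)
  · -- bound
    intro t ht x
    have h1 := hB1 t ht x
    obtain ⟨h2, h3⟩ := hu t ht x
    have h4 := hk0 t ht
    have h5 := hk1 t ht
    refine (abs_sub _ _).trans ?_
    have h6 : |2 * (c * Real.exp (-(2 * t)) - g) * iteratedDeriv 2 (gstep g t F) x| ≤ 2 := by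
      rw [abs_of_nonneg (by positivity)]
      have : (c * Real.exp (-(2 * t)) - g) * iteratedDeriv 2 (gstep g t F) x ≤ 1 * 1 :=
        mul_le_mul h5 h3 h2.le zero_le_one
      linarith
    linarith
  · intro t ht x
    refine (beta_s h.smb hg ht.1 (beta_pos h hg hg1 ht.1.le x)).sub ?_
    have h1 : HasDerivAt (fun t : ℝ => -(2 * t)) (-2) t :=
      (((hasDerivAt_id' t).const_mul 2).fun_neg).congr_deriv (by ring)
    have h2 : HasDerivAt (fun t : ℝ => 2 * (c * Real.exp (-(2 * t)) - g))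
        (2 * (-(2 * (c * Real.exp (-(2 * t)))))) t :=
      (((h1.exp.const_mul c).sub_const g).const_mul 2).congr_deriv (by ring)
    exact h2.mul (fj_s2 h.smb hg ht.1 x)
  · intro t ht x
    refine (beta_hasDerivAt (hsm t) (beta_pos h hg hg1 ht.1.le x) g).sub ?_
    exact (beta_iter (hsm t) 2 x).const_mul _
  · intro t ht x
    refine (beta_p_hasDerivAt (hsm t) (beta_pos h hg hg1 ht.1.le x) g).sub ?_
    exact (beta_iter (hsm t) 3 x).const_mul _
  · intro t ht x
    simp only [abs_neg]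
    exact (hB2 t ⟨ht.1.le, ht.2.le⟩ x).trans (by linarith)
  · intro t ht x
    have ht' : t ∈ Icc 0 s := ⟨ht.1.le, ht.2.le⟩
    have h1 := hB1 t ht' x
    have h2 := (hu t ht' x).1
    have h3 := neg_abs_le (bet g (gstep g t F) x)
    have h4 : 0 < g * iteratedDeriv 2 (gstep g t F) x := mul_pos hg h2
    have h5 : 0 ≤ 2 * (c * Real.exp (-(2 * t)) - g) * iteratedDeriv 2 (gstep g t F) x :=
      mul_nonneg (mul_nonneg zero_le_two (hk0 t ht')) h2.le
    linarith
  · intro t ht x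
    have ht' : t ∈ Icc 0 s := ⟨ht.1.le, ht.2.le⟩
    obtain ⟨h2, h3⟩ := hu t ht' x
    have h4 := hk0 t ht'
    have h5 := hk1 t ht'
    simp only [Yf]
    obtain ⟨u, hu'⟩ : ∃ u, u = iteratedDeriv 2 (gstep g t F) x := ⟨_, rfl⟩
    obtain ⟨a1, ha1⟩ : ∃ a, a = iteratedDeriv 1 (gstep g t F) x := ⟨_, rfl⟩
    obtain ⟨a3, ha3⟩ : ∃ a, a = iteratedDeriv 3 (gstep g t F) x := ⟨_, rfl⟩
    obtain ⟨a4, ha4⟩ : ∃ a, a = iteratedDeriv 4 (gstep g t F) x := ⟨_, rfl⟩
    obtain ⟨b0, hb0⟩ : ∃ a, a = bet g (gstep g t F) x := ⟨_, rfl⟩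
    obtain ⟨b1, hb1⟩ : ∃ a, a = betp g (gstep g t F) x := ⟨_, rfl⟩
    obtain ⟨b2, hb2⟩ : ∃ a, a = beta_pp g (gstep g t F) x := ⟨_, rfl⟩
    obtain ⟨κ, hκ⟩ : ∃ k, k = c * Real.exp (-(2 * t)) - g := ⟨_, rfl⟩
    have hce : c * Real.exp (-(2 * t)) = κ + g := by rw [hκ]; ring
    rw [← hu'] at h2 h3 ⊢
    rw [← hκ] at h4 h5
    rw [← ha1, ← ha3, ← ha4, ← hb0, ← hb1, ← hb2, hce]
    have e1 : κ + g - g = κ := by ring
    rw [e1]
    obtain ⟨z, hz⟩ : ∃ z, z = a3 / u := ⟨_, rfl⟩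
    have ha3z : a3 = z * u := by rw [hz]; field_simp
    rw [← hz, ha3z]
    have k1 : 0 ≤ κ * u * z ^ 2 := by positivity
    have k2 : κ * u ≤ 1 := by nlinarith
    have k3 : 0 ≤ (κ + g) * (1 - κ * u) := mul_nonneg (by linarith) (by linarith)
    have k4 : 0 ≤ u * ((κ + g) * (1 - κ * u)) := mul_nonneg h2.le k3
    nlinarith
  · intro x
    rw [gstep_zero hg.ne']
    have := hb x
    rw [inv_bet_eq c g] at this
    simpa using this

/-- One step in the invariant class. -/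
theorem inv_good {g' : ℝ} (h : Good g' C F) (hc0 : 0 < c) (hc1 : c ≤ 1)
    (hb : ∀ x, 0 ≤ bet c F x) (hg : 0 < g) (hgg : g ≤ g') (hg'1 : g' ≤ 1) {s : ℝ} (hs : 0 ≤ s) :
    ∀ x, 0 ≤ bet (c * Real.exp (-(2 * s))) (gstep g s F) x := by
  rcases le_total g (c * Real.exp (-(2 * s))) with h1 | h1
  · exact inv_step h.adm hc0 hc1 hb hg hs h1
  · have h2 := h.step hg hgg hg'1 hs
    exact inv_mono h2.adm h1 h2.bet_nonneg

/-- The functions of the recursion. -/
theorem inv_cascade {n : ℕ} {m r : ℕ → ℝ} (h : Good g C F) (hg1 : g ≤ 1) (hc0 : 0 < c)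
    (hc1 : c ≤ 1) (hb : ∀ x, 0 ≤ bet c F x)
    (hm0 : ∀ l, 1 ≤ l → l ≤ n → 0 < m l) (hmm : ∀ l, 1 ≤ l → l < n → m l ≤ m (l + 1))
    (hmg : ∀ l, 1 ≤ l → l ≤ n → m l ≤ g) (hr : ∀ l < n, r l ≤ r (l + 1)) :
    ∀ x, 0 ≤ bet (c * Real.exp (-(2 * (r n - r 0)))) (cascade m r n F) x := by
  induction n generalizing F C g c with
  | zero =>
    have e : cascade m r 0 F = F := rfl
    rw [e, sub_self, mul_zero, neg_zero, Real.exp_zero, mul_one]
    exact hb
  | succ n ih =>
    have hv : 0 ≤ r (n + 1) - r n := sub_nonneg.2 (hr n (Nat.lt_succ_self n))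
    have hmc := hm0 (n + 1) (by omega) le_rfl
    have hmg' := hmg (n + 1) (by omega) le_rfl
    have hm1 : m (n + 1) ≤ 1 := hmg'.trans hg1
    have hchain' : ∀ j l, 1 ≤ l → l + j ≤ n + 1 → m l ≤ m (l + j) := by
      intro j
      induction j with
      | zero => exact fun l _ _ => le_rfl
      | succ j ihj =>
        intro l hl hlj
        exact (ihj l hl (by omega)).trans (hmm (l + j) (by omega) (by omega))
    have hchain : ∀ l, 1 ≤ l → l ≤ n + 1 → m l ≤ m (n + 1) := by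
      intro l hl hln
      have := hchain' (n + 1 - l) l hl (by omega)
      rwa [Nat.add_sub_cancel' hln] at this
    have hexp : Real.exp (-(2 * (r (n + 1) - r n))) ≤ 1 := Real.exp_le_one_iff.2 (by linarith)
    have h1 := ih (h.step hmc hmg' hg1 hv) hm1
      (c := c * Real.exp (-(2 * (r (n + 1) - r n)))) (by positivity)
      (by
        calc c * Real.exp (-(2 * (r (n + 1) - r n))) ≤ 1 * 1 :=
              mul_le_mul hc1 hexp (Real.exp_pos _).le zero_le_one
          _ = 1 := one_mul 1)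
      (inv_good h hc0 hc1 hb hmc hmg' hg1 hv)
      (fun l a b => hm0 l a (by omega)) (fun l a b => hmm l a (by omega))
      (fun l a b => hchain l a (by omega)) (fun l a => hr l (by omega))
    rw [cascade_succ_def]
    have e : c * Real.exp (-(2 * (r (n + 1) - r n))) * Real.exp (-(2 * (r n - r 0))) =
        c * Real.exp (-(2 * (r (n + 1) - r 0))) := by
      rw [mul_assoc, ← Real.exp_add]
      congr 2
      ring
    rwa [e] at h1

theorem inv_lc (x : ℝ) : 0 ≤ bet 1 lc x := good_lc.bet_nonneg x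

/-- `F''' ≤ -2 c F' F''` on the half line. -/
theorem inv_d3 (h : Adm C F) (hb : ∀ x, 0 ≤ bet c F x) {x : ℝ} (hx : 0 ≤ x) :
    iteratedDeriv 3 F x ≤ -(2 * c * iteratedDeriv 1 F x * iteratedDeriv 2 F x) := by
  have h1 : 0 ≤ -(iteratedDeriv 3 F x / iteratedDeriv 2 F x) / 2 - c * iteratedDeriv 1 F x := by
    refine GoodX.good_mono (fun x => Good.D_hasDerivAt h c x) ?_
      (fun y _ => div_nonneg (hb y) (by norm_num)) hx
    rw [GoodX.good_odd h.even (j := 3) (by decide), GoodX.good_odd h.even (j := 1) (by decide)]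
    simp
  have h2 := h.pos x
  have h3 : iteratedDeriv 3 F x / iteratedDeriv 2 F x ≤ -(2 * c * iteratedDeriv 1 F x) := by
    linarith
  rw [div_le_iff₀ h2] at h3
  linarith

end Vale.Agent.P146.Gap
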