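import Vale.Agent.P146.Sx.M1
import Vale.Agent.P146.Ub.Gap2

/-!
# P146 / Sx: the Parisi functional with all exponents at least `x`, sharp order

The infimum of the SK Parisi functional over the exponents `≥ x` is at most the infimum over all
exponents plus `C x⁵` (for `b > 1`).
-/

set_option linter.all false

open MeasureTheory ProbabilityTheory Filter Topology Set

namespace Vale.Agent.P146.Pw2

open Vale.Agent.P157.Par
open Vale.Agent.P146.Gap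

theorem aks_cascade {n : ℕ} {m r : ℕ → ℝ} {s : ℝ} {F : ℝ → ℝ} (h : AKs s F) (hs : 0 ≤ s)
    (hm0 : ∀ l, 1 ≤ l → l ≤ n → 0 < m l) (hm1 : ∀ l, 1 ≤ l → l ≤ n → m l ≤ 1)
    (hr : ∀ l < n, r l ≤ r (l + 1)) : AKs (s + (r n - r 0)) (cascade m r n F) := by
  induction n generalizing F s with
  | zero =>
    have e : cascade m r 0 F = F := rfl
    rw [e, sub_self, add_zero]
    exact h
  | succ n ih =>
    have hv : 0 ≤ r (n + 1) - r n := sub_nonneg.2 (hr n (Nat.lt_succ_self n))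
    have h1 := ih (h.step hs (hm0 (n + 1) (by omega) le_rfl) (hm1 (n + 1) (by omega) le_rfl) hv)
      (by linarith) (fun l a b => hm0 l a (by omega)) (fun l a b => hm1 l a (by omega))
      (fun l a => hr l (by omega))
    rw [cascade_succ_def]
    have e : s + (r (n + 1) - r n) + (r n - r 0) = s + (r (n + 1) - r 0) := by ring
    rwa [e] at h1

/-- The data of the first block. -/
theorem gap5_data {b : ℝ} (hb : 0 < b) {k : ℕ} {m R : ℕ → ℝ} (hm : Exponents (k + 1) m)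
    (hR : MinbP b (k + 1) R)
    (hmin : ∀ R', MinbP b (k + 1) R' → minbJ b (k + 1) m R ≤ minbJ b (k + 1) m R')
    (h10 : 0 < R 1) :
    ∃ F : ℝ → ℝ, Good (m 2) (2 * Real.exp (2 * b ^ 2)) F ∧ AKs (b ^ 2 - R 1) F ∧
      (∀ x, 0 ≤ bet (Real.exp (-(2 * (b ^ 2 - R 1)))) F x) ∧
      Rf (m 1) (m 1) (R 1) F (R 1) ≤ R 1 / b ^ 2 ∧
      gstep (m 1) (R 1) F 0 - m 1 * R 1 ^ 2 / (4 * b ^ 2) ≤
        gstep (m 2) (R 1) F 0 - m 2 * R 1 ^ 2 / (4 * b ^ 2) ∧
      minbJ b k (gap2D m) (gap2D R) = minbJ b (k + 1) m R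
        + (gstep (m 2) (R 1) F 0 - gstep (m 1) (R 1) F 0 - (m 2 - m 1) * R 1 ^ 2 / (4 * b ^ 2)) := by
  obtain ⟨emono, e0, e1⟩ := minb_exp hm
  have hmonoR : ∀ i j, i ≤ j → j ≤ k + 2 → R i ≤ R j := fun i j h1 h2 => minb_mono hR.2.1 h1 h2
  have hm1 : 0 < m 1 := e0 1 (by omega) (by omega)
  have hm2 : 0 < m 2 := e0 2 (by omega) (by omega)
  have hm12 : m 1 < m 2 := hm.2.2 1 (by omega)
  have hm21 : m 2 ≤ 1 := e1 2 (by omega)
  have hR1 : 0 ≤ R 1 := h10.le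
  have hR1b : R 1 ≤ b ^ 2 := by
    have := hmonoR 1 (k + 2) (by omega) le_rfl
    rwa [hR.2.2] at this
  have hgoodR : ∀ i n : ℕ, i + n ≤ k + 2 → Good (if n = 0 then 1 else m (i + 1))
      (2 * Real.exp (2 * b ^ 2))
      (cascade (fun l => m (i + l)) (fun l => R (i + l)) n lc) := by
    intro i n hin
    have h1 := good_cascade (c := n) (m := fun l => m (i + l)) (r := fun l => R (i + l)) good_lc
      le_rfl (fun l h1 h2 => e0 _ (by omega) (by omega))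
      (fun l h1 h2 => emono _ _ (by omega) (by omega))
      (fun l h1 h2 => e1 _ (by omega)) (fun l hl => hR.2.1 _ (by omega))
    refine h1.mono_C ?_
    have h2 := hmonoR (i + n) (k + 2) hin le_rfl
    have h3 := hmonoR 0 (i + 0) (by omega) (by omega)
    have h4 : R (k + 2) = b ^ 2 := hR.2.2
    rw [h4] at h2
    rw [hR.1] at h3
    gcongr
    linarith
  have hadmR : ∀ i n : ℕ, i + n ≤ k + 2 → Adm (2 * Real.exp (2 * b ^ 2))
      (cascade (fun l => m (i + l)) (fun l => R (i + l)) n lc) := fun i n h => (hgoodR i n h).adm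
  refine ⟨cascade (fun l => m (1 + l)) (fun l => R (1 + l)) (k + 1) lc, ?_, ?_, ?_, ?_, ?_, ?_⟩
  · have h1 := hgoodR 1 (k + 1) (by omega)
    rw [if_neg (Nat.succ_ne_zero k)] at h1
    exact h1
  · have h1 := aks_cascade (n := k + 1) (m := fun l => m (1 + l)) (r := fun l => R (1 + l)) aks_lc
      le_rfl (fun l h1 h2 => e0 _ (by omega) (by omega)) (fun l h1 h2 => e1 _ (by omega))
      (fun l hl => hR.2.1 _ (by omega))
    have h2 : (0 : ℝ) + (R (1 + (k + 1)) - R (1 + 0)) = b ^ 2 - R 1 := by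
      have h4 : R (1 + (k + 1)) = b ^ 2 := by
        have : 1 + (k + 1) = k + 2 := by omega
        rw [this]; exact hR.2.2
      rw [h4, Nat.add_zero]; ring
    rwa [h2] at h1
  · have h1 := inv_cascade (n := k + 1) (c := 1) (m := fun l => m (1 + l))
      (r := fun l => R (1 + l)) good_lc le_rfl one_pos le_rfl inv_lc
      (fun l h1 h2 => e0 _ (by omega) (by omega))
      (fun l h1 h2 => emono _ _ (by omega) (by omega))
      (fun l h1 h2 => e1 _ (by omega)) (fun l hl => hR.2.1 _ (by omega))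
    have h2 : (1 : ℝ) * Real.exp (-(2 * (R (1 + (k + 1)) - R (1 + 0)))) =
        Real.exp (-(2 * (b ^ 2 - R 1))) := by
      have h4 : R (1 + (k + 1)) = b ^ 2 := by
        have : 1 + (k + 1) = k + 2 := by omega
        rw [this]; exact hR.2.2
      rw [h4, Nat.add_zero, one_mul]
    rwa [h2] at h1
  all_goals set F := cascade (fun l => m (1 + l)) (fun l => R (1 + l)) (k + 1) lc with hF
  · have hadmF : Adm (2 * Real.exp (2 * b ^ 2)) F := hadmR 1 (k + 1) (by omega)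
    by_cases hjb : R 1 = b ^ 2
    · refine (Rf_le_one hadmF hm1 (hm12.le.trans hm21) hm1 ⟨h10.le, le_rfl⟩).trans (le_of_eq ?_)
      rw [hjb, div_self (by positivity)]
    have hlt : R 1 < R (k + 2) := by
      have h2 : R (k + 2) = b ^ 2 := hR.2.2
      rw [h2]
      exact lt_of_le_of_ne hR1b hjb
    have hex2 : ∃ l, R 1 < R l := ⟨k + 2, hlt⟩
    classical
    set p := Nat.find hex2 with hp
    have hRp : R 1 < R p := Nat.find_spec hex2
    have hpk : p ≤ k + 2 := Nat.find_min' hex2 hlt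
    have hjp : 1 < p := by
      by_contra h
      have := hmonoR p 1 (by omega) (by omega)
      linarith
    have h1 : ∀ l, 1 ≤ l → l < p → R l = R 1 := by
      intro l h1 h2
      have h3 := Nat.find_min hex2 h2
      have h4 := hmonoR 1 l h1 (by omega)
      linarith [not_lt.1 h3]
    have hmp : m 1 < m p := hm12.trans_le (emono 2 p (by omega) (by omega))
    have hFp := gap2_step (p := p) hm hjp hpk h1
    rw [← hF] at hFp
    rw [hFp]
    refine vari_down hb (hadmR p (k + 2 - p) (by omega)) hm1 hmp (e1 p (by omega)) h10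
      (sub_pos.2 hRp) ?_
    intro τ hτ
    have h0 : ∀ l < 1, R l = 0 := fun l hl => by
      have : l = 0 := by omega
      rw [this]; exact hR.1
    have h2 := minb_comp (p := p) (c := R 1 + τ) hm hR hmin le_rfl hjp hpk h0 h1
      (by linarith [hτ.1]) (by linarith [hτ.2])
    have h3 : R p - (R 1 + τ) = R p - R 1 - τ := by ring
    rw [h3] at h2
    have h5 : (m p - m 1) * ((R 1 + τ) ^ 2 - R 1 ^ 2) / (4 * b ^ 2) =
      (m 1 - m p) * R 1 ^ 2 / (4 * b ^ 2) - (m 1 - m p) * (R 1 + τ) ^ 2 / (4 * b ^ 2) := by ring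
    rw [h5] at h2
    have h6 : k + 1 + 1 - p = k + 2 - p := rfl
    rw [h6] at h2
    linarith
  all_goals
    set F₂ := cascade (fun l => m (2 + l)) (fun l => R (2 + l)) k lc with hF₂
    have hadmF : Adm (2 * Real.exp (2 * b ^ 2)) F := hadmR 1 (k + 1) (by omega)
    have hadmF₂ : Adm (2 * Real.exp (2 * b ^ 2)) F₂ := hadmR 2 k (by omega)
    have hstep2 : F = gstep (m 2) (R 2 - R 1) F₂ := by
      have := gap2_step (p := 2) hm (by omega) (by omega) (R := R) (fun l h1 h2 => by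
        have : l = 1 := by omega
        rw [this])
      exact this
    have hcasc2 : gstep (m 2) (R 2) F₂ = gstep (m 2) (R 1) F := by
      have h1 := gstep_add (g := m 2) (v := R 1) (v' := R 2 - R 1) hadmF₂ hm2 hR1
        (sub_nonneg.2 (hR.2.1 1 (by omega)))
      rw [hstep2, h1]
      congr 1
      ring
  · have h0 : ∀ l < 1, R l = 0 := fun l hl => by
      have : l = 0 := by omega
      rw [this]; exact hR.1
    have h2 := minb_comp (j := 1) (p := 2) (c := 0) hm hR hmin le_rfl (by omega) (by omega) h0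
      (fun l h1 h2 => by
        have : l = 1 := by omega
        rw [this]) le_rfl (hmonoR 0 2 (by omega) (by omega) |>.trans' (by rw [hR.1]))
    have h6 : k + 1 + 1 - 2 = k := by omega
    rw [h6, ← hF₂, ← hstep2, gstep_zero hm1.ne', sub_zero, hcasc2] at h2
    have h5 : (m 2 - m 1) * (0 ^ 2 - R 1 ^ 2) / (4 * b ^ 2) =
      m 1 * R 1 ^ 2 / (4 * b ^ 2) - m 2 * R 1 ^ 2 / (4 * b ^ 2) := by ring
    rw [h5] at h2
    linarith
  · unfold minbJ
    rw [gap2_sum hR.1, gap2_casc hR.1, gap2_casc' hR.1, hcasc2]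
    ring

/-- The lower bound of `M 0`. -/
theorem gap5_first {b : ℝ} (hb : 0 < b) {δ : ℝ} (hδ : 0 < δ) : ∃ η₀ > 0, ∀ (K : ℝ), 0 ≤ K →
    (∀ (C g g' s₁ : ℝ) (F : ℝ → ℝ), Adm C F → 0 < g → g ≤ g' → g' ≤ 1 → s₁ ≤ b ^ 2 →
      ∀ τ ∈ Icc 0 s₁, Rf g' g s₁ F τ ≤ Rf g g s₁ F τ + K * (g' - g) * τ) →
    ∀ (g g' s₁ : ℝ) (F : ℝ → ℝ), Good g' (2 * Real.exp (2 * b ^ 2)) F → 0 < g → g < g' →
      g' ≤ 1 → 0 < s₁ → s₁ ≤ b ^ 2 → K * (g' - g) ≤ 2 * η₀ →
      Rf g g s₁ F s₁ ≤ s₁ / b ^ 2 →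
      gstep g s₁ F 0 - g * s₁ ^ 2 / (4 * b ^ 2) ≤ gstep g' s₁ F 0 - g' * s₁ ^ 2 / (4 * b ^ 2) →
      (1 - δ) / b ^ 2 ≤ Mf g s₁ F 0 := by
  set C0 : ℝ := 2 * Real.exp (2 * b ^ 2) with hC0
  have hC0p : 0 < C0 := by positivity
  obtain ⟨η₀, hη₀, hreal⟩ := gap_real (b := b) (S := b ^ 2)
    (C := (C0 * Real.exp (2 * b ^ 2)) ^ 2) (δ := δ) hb (by positivity) hδ
  refine ⟨η₀, hη₀, ?_⟩
  intro K hK htilt g g' s₁ F hF hg hgg hg'1 hs₁ hs hKη hend hup
  have hg1 : g ≤ 1 := hgg.le.trans hg'1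
  have hg' : 0 < g' := hg.trans hgg
  have hA := hF.adm
  refine hreal s₁ (Rf g g s₁ F) (Mf g s₁ F) (M1f g s₁ F) (M2f g s₁ F) hs₁ hs
    (Rf_cont hA hg hg1 hg hg1) (Mf_cont hA hg hg1) (M1f_cont hA hg hg1)
    (fun τ hτ => Rf_hasDerivAt hA hg hg1 hτ) (fun τ hτ => Mf_hasDerivAt hA hg hg1 hτ)
    (fun τ hτ => M1f_hasDerivAt hA hg hg1 hτ)
    (fun τ hτ => gapn_M2f_nonneg hF hg hgg.le hg'1 hτ) ?_ (Rf_zero hA hg hg1 _ hs₁.le) hend ?_
  · intro τ hτ
    refine (M1f_le hA hg hg1 hτ).trans ?_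
    refine pow_le_pow_left₀ (by positivity) ?_ 2
    refine mul_le_mul_of_nonneg_left ?_ hC0p.le
    exact Real.exp_le_exp.2 (by linarith)
  · have h1 := vari_up hb hA hg hgg hg'1 hs₁ hup
    have h2 : ∫ τ in (0 : ℝ)..s₁, Rf g' g s₁ F τ ≤
        ∫ τ in (0 : ℝ)..s₁, (Rf g g s₁ F τ + K * (g' - g) * τ) := by
      refine intervalIntegral.integral_mono_on hs₁.le ?_ ?_ ?_
      · exact (Rf_cont hA hg hg1 hg' hg'1).intervalIntegrable_of_Icc hs₁.le
      · exact ContinuousOn.intervalIntegrable_of_Icc hs₁.le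
          ((Rf_cont hA hg hg1 hg hg1).add (by fun_prop))
      · intro τ hτ
        exact htilt _ _ _ _ F hA hg hgg.le hg'1 hs τ hτ
    have h3 : ∫ τ in (0 : ℝ)..s₁, (Rf g g s₁ F τ + K * (g' - g) * τ) =
        (∫ τ in (0 : ℝ)..s₁, Rf g g s₁ F τ) + K * (g' - g) * (s₁ ^ 2 / 2) := by
      rw [intervalIntegral.integral_add
        ((Rf_cont hA hg hg1 hg hg1).intervalIntegrable_of_Icc hs₁.le)
        (ContinuousOn.intervalIntegrable_of_Icc hs₁.le (by fun_prop)),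
        intervalIntegral.integral_const_mul, integral_id]
      ring
    have h7 : K * (g' - g) * (s₁ ^ 2 / 2) ≤ η₀ * s₁ ^ 2 := by
      have := mul_le_mul_of_nonneg_right hKη (show 0 ≤ s₁ ^ 2 / 2 by positivity)
      linarith
    linarith

/-- Dropping the first exponent. -/
theorem gap5_drop {b K a δ η₀ : ℝ} (hb1 : 1 ≤ b) (hK : 0 ≤ K) (ha : 0 < a) (hδ : 0 < δ)
    (htilt : ∀ (C g g' s₁ : ℝ) (F : ℝ → ℝ), Adm C F → 0 < g →
      g ≤ g' → g' ≤ 1 → s₁ ≤ b ^ 2 → ∀ τ ∈ Icc 0 s₁,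
      Rf g' g s₁ F τ ≤ Rf g g s₁ F τ + K * (g' - g) * τ)
    (hM1 : ∀ (g g' C s s₁ : ℝ) (F : ℝ → ℝ), Good g' C F → AKs s F → 0 ≤ s → 0 < g → g ≤ g' →
      g' ≤ 1 → 0 < s₁ → s + s₁ ≤ b ^ 2 → (∀ x, 0 ≤ bet (Real.exp (-(2 * s))) F x) →
      ∀ τ ∈ Ioo 0 s₁, a * τ - 2 * g ≤ M1f g s₁ F τ)
    (hfirst : ∀ (g g' s₁ : ℝ) (F : ℝ → ℝ), Good g' (2 * Real.exp (2 * b ^ 2)) F → 0 < g →
      g < g' → g' ≤ 1 → 0 < s₁ → s₁ ≤ b ^ 2 → K * (g' - g) ≤ 2 * η₀ →
      Rf g g s₁ F s₁ ≤ s₁ / b ^ 2 →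
      gstep g s₁ F 0 - g * s₁ ^ 2 / (4 * b ^ 2) ≤ gstep g' s₁ F 0 - g' * s₁ ^ 2 / (4 * b ^ 2) →
      (1 - δ ^ 2) / b ^ 2 ≤ Mf g s₁ F 0)
    {k : ℕ} {m R : ℕ → ℝ} (hm : Exponents (k + 1) m) (hR : MinbP b (k + 1) R)
    (hmin : ∀ R', MinbP b (k + 1) R' → minbJ b (k + 1) m R ≤ minbJ b (k + 1) m R')
    (hη : K * (m 2 - m 1) ≤ 2 * η₀) :
    minbJ b k (gap2D m) (gap2D R) ≤ minbJ b (k + 1) m R
      + (m 2 - m 1) * (m 1 * ((12 / a + 1) * (m 1 + δ)) ^ 3 + K * b ^ 4 * (m 2 - m 1)) := by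
  have hb : 0 < b := by linarith
  obtain ⟨emono, e0, e1⟩ := minb_exp hm
  have hm1 : 0 < m 1 := e0 1 (by omega) (by omega)
  have hm12 : m 1 < m 2 := hm.2.2 1 (by omega)
  have hm21 : m 2 ≤ 1 := e1 2 (by omega)
  have hR1 : 0 ≤ R 1 := by
    have := minb_mono hR.2.1 (i := 0) (j := 1) (by omega) (by omega)
    rwa [hR.1] at this
  have hR1b : R 1 ≤ b ^ 2 := by
    have := minb_mono hR.2.1 (i := 1) (j := k + 2) (by omega) le_rfl
    rwa [show R (k + 2) = b ^ 2 from hR.2.2] at this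
  set Q : ℝ := (12 / a + 1) * (m 1 + δ) with hQ
  have hQ0 : 0 ≤ Q := by positivity
  have hd : 0 ≤ m 2 - m 1 := by linarith
  rcases hR1.eq_or_lt with h10 | h10
  · -- no block
    have hJ : minbJ b k (gap2D m) (gap2D R) = minbJ b (k + 1) m R := by
      unfold minbJ
      rw [gap2_sum hR.1, gap2_casc hR.1, gap2_casc' hR.1]
      have hstep2 := gap2_step (p := 2) hm (by omega) (by omega) (R := R) (fun l h1 h2 => by
        have : l = 1 := by omega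
        rw [this])
      rw [hstep2, ← h10, gstep_zero hm1.ne', sub_zero]
      simp only [Nat.add_sub_cancel]
      ring
    rw [hJ]
    have : 0 ≤ (m 2 - m 1) * (m 1 * Q ^ 3 + K * b ^ 4 * (m 2 - m 1)) := by positivity
    linarith
  obtain ⟨F, hF, hFs, hinv, hend, hup, hJ⟩ := gap5_data hb hm hR hmin h10
  rw [hJ]
  have hg1 : m 1 ≤ 1 := hm12.le.trans hm21
  have h0 := hfirst (m 1) (m 2) (R 1) F hF hm1 hm12 hm21 h10 hR1b hη hend hup
  have hlen := sx_len hF.adm hm1 hg1 h10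
    (hM1 (m 1) (m 2) _ (b ^ 2 - R 1) (R 1) F hF hFs (by linarith) hm1 hm12.le hm21 h10
      (by linarith) hinv) h0 hend
  have hRQ : R 1 ≤ Q := by
    by_contra hcon
    push Not at hcon
    have k0 : δ ^ 2 / b ^ 2 ≤ δ ^ 2 := div_le_self (sq_nonneg _) (one_le_pow₀ hb1)
    have k1 : a * R 1 ^ 2 / 6 ≤ δ ^ 2 + m 1 * R 1 := hlen.trans (by linarith)
    have hx : 0 < 12 / a := by positivity
    have k2 : 12 * m 1 ≤ a * R 1 := by
      have e : 12 / a * m 1 ≤ Q := by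
        rw [hQ]
        nlinarith
      have e3 := mul_le_mul_of_nonneg_left (e.trans hcon.le) ha.le
      have e4 : a * (12 / a * m 1) = 12 * m 1 := by field_simp
      linarith
    have k3 : 12 * δ ^ 2 < a * R 1 ^ 2 := by
      have e : (12 / a + 1) * δ < R 1 := by
        refine lt_of_le_of_lt ?_ hcon
        rw [hQ]
        nlinarith
      have e2 : ((12 / a + 1) * δ) ^ 2 < R 1 ^ 2 := pow_lt_pow_left₀ e (by positivity) two_ne_zero
      have e3 : 12 / a * δ ^ 2 ≤ ((12 / a + 1) * δ) ^ 2 := by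
        rw [mul_pow]
        refine mul_le_mul_of_nonneg_right ?_ (sq_nonneg _)
        nlinarith
      have e4 := mul_lt_mul_of_pos_left (e3.trans_lt e2) ha
      have e5 : a * (12 / a * δ ^ 2) = 12 * δ ^ 2 := by field_simp
      linarith
    have k4 := mul_le_mul_of_nonneg_right k2 hR1
    nlinarith
  have hcost := gap2_cost hb hF.adm hm1 hm12.le hm21 h10
    (fun τ hτ => htilt _ _ _ _ F hF.adm hm1 hm12.le hm21 hR1b τ hτ) hend
  have hb3 : R 1 ^ 3 ≤ Q ^ 3 := pow_le_pow_left₀ hR1 hRQ 3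
  have hb2 : R 1 ^ 2 ≤ b ^ 4 := by
    calc R 1 ^ 2 ≤ (b ^ 2) ^ 2 := pow_le_pow_left₀ hR1 hR1b 2
      _ = b ^ 4 := by ring
  have h7 : m 1 * R 1 ^ 3 / 6 + K * (m 2 - m 1) * R 1 ^ 2 / 2 ≤
      m 1 * Q ^ 3 + K * b ^ 4 * (m 2 - m 1) := by
    have a1 : m 1 * R 1 ^ 3 ≤ m 1 * Q ^ 3 := mul_le_mul_of_nonneg_left hb3 hm1.le
    have a2 : K * (m 2 - m 1) * R 1 ^ 2 ≤ K * (m 2 - m 1) * b ^ 4 :=
      mul_le_mul_of_nonneg_left hb2 (by positivity)
    have a3 : 0 ≤ m 1 * Q ^ 3 := by positivity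
    have a4 : 0 ≤ K * (m 2 - m 1) * b ^ 4 := by positivity
    linarith
  have h8 := mul_le_mul_of_nonneg_left h7 (show 0 ≤ 1 / 2 * (m 2 - m 1) by linarith)
  have h9 : 0 ≤ (m 2 - m 1) * (m 1 * Q ^ 3 + K * b ^ 4 * (m 2 - m 1)) := by positivity
  linarith

/-! ### Iteration -/

theorem gap5_iter {b K a δ η₀ x η : ℝ} (hb1 : 1 ≤ b) (hK : 0 ≤ K) (ha : 0 < a) (hδ : 0 < δ)
    (htilt : ∀ (C g g' s₁ : ℝ) (F : ℝ → ℝ), Adm C F → 0 < g →
      g ≤ g' → g' ≤ 1 → s₁ ≤ b ^ 2 → ∀ τ ∈ Icc 0 s₁,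
      Rf g' g s₁ F τ ≤ Rf g g s₁ F τ + K * (g' - g) * τ)
    (hM1 : ∀ (g g' C s s₁ : ℝ) (F : ℝ → ℝ), Good g' C F → AKs s F → 0 ≤ s → 0 < g → g ≤ g' →
      g' ≤ 1 → 0 < s₁ → s + s₁ ≤ b ^ 2 → (∀ x, 0 ≤ bet (Real.exp (-(2 * s))) F x) →
      ∀ τ ∈ Ioo 0 s₁, a * τ - 2 * g ≤ M1f g s₁ F τ)
    (hfirst : ∀ (g g' s₁ : ℝ) (F : ℝ → ℝ), Good g' (2 * Real.exp (2 * b ^ 2)) F → 0 < g →
      g < g' → g' ≤ 1 → 0 < s₁ → s₁ ≤ b ^ 2 → K * (g' - g) ≤ 2 * η₀ →
      Rf g g s₁ F s₁ ≤ s₁ / b ^ 2 →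
      gstep g s₁ F 0 - g * s₁ ^ 2 / (4 * b ^ 2) ≤ gstep g' s₁ F 0 - g' * s₁ ^ 2 / (4 * b ^ 2) →
      (1 - δ ^ 2) / b ^ 2 ≤ Mf g s₁ F 0)
    (hx : 0 < x) (hx1 : x ≤ 1) (hη : 0 < η) (hKη : K * η ≤ 2 * η₀) :
    ∀ (k : ℕ) (m : ℕ → ℝ), Exponents k m → (∀ l, 1 ≤ l → l ≤ k → m (l + 1) - m l ≤ η) →
      m 1 ≤ x + η → ∀ R, MinbP b k R → ∃ (k' : ℕ) (m' R' : ℕ → ℝ), Exponents k' m' ∧ x ≤ m' 1 ∧
        MinbP b k' R' ∧ minbJ b k' m' R' ≤ minbJ b k m R
          + ((x + η) * ((12 / a + 1) * (x + η + δ)) ^ 3 + K * b ^ 4 * η) * (x + η - m 1) := by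
  have hb : 0 < b := by linarith
  set B : ℝ := (x + η) * ((12 / a + 1) * (x + η + δ)) ^ 3 + K * b ^ 4 * η with hB
  have hB0 : 0 ≤ B := by positivity
  intro k
  induction k with
  | zero =>
    intro m hm _ hmx R hR
    refine ⟨0, m, R, hm, ?_, hR, ?_⟩
    · have := hm.2.1
      simp only [Nat.zero_add] at this
      rw [this]; exact hx1
    · have h1 : 0 ≤ x + η - m 1 := by linarith
      have := mul_nonneg hB0 h1
      linarith
  | succ k ih =>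
    intro m hm hmesh hmx R hR
    by_cases hxm : x ≤ m 1
    · refine ⟨k + 1, m, R, hm, hxm, hR, ?_⟩
      have h1 : 0 ≤ x + η - m 1 := by linarith
      have := mul_nonneg hB0 h1
      linarith
    push Not at hxm
    obtain ⟨r, hr, hrmin⟩ := exists_min hb hm
    have hP : MinbP b (k + 1) (minbExt b (k + 1) r) := minb_ext_P hr
    have hPmin : ∀ R', MinbP b (k + 1) R' →
        minbJ b (k + 1) m (minbExt b (k + 1) r) ≤ minbJ b (k + 1) m R' :=
      fun R' h => minb_min_ext hm hr hrmin h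
    have h12 : m 2 - m 1 ≤ η := hmesh 1 le_rfl (by omega)
    have hm12 : m 1 < m 2 := hm.2.2 1 (by omega)
    have hm1 : 0 < m 1 := by
      have := hm.2.2 0 (by omega)
      rwa [hm.1] at this
    have hdrop := gap5_drop hb1 hK ha hδ htilt hM1 hfirst hm hP hPmin
      ((mul_le_mul_of_nonneg_left h12 hK).trans hKη)
    obtain ⟨k', m', R', h1, h2, h3, h4⟩ := ih (gap2D m) (gap2D_exp hm)
      (fun l h1 h2 => by
        obtain ⟨i, rfl⟩ := Nat.exists_eq_add_of_le' h1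
        rw [gap2D_succ, gap2D_succ]
        exact hmesh (i + 2) (by omega) (by omega))
      (by rw [gap2D_succ]; simp only [Nat.zero_add]; linarith) _ (gap2D_P hP)
    refine ⟨k', m', R', h1, h2, h3, h4.trans ?_⟩
    have h5 := hPmin R hR
    have h6 : gap2D m 1 = m 2 := gap2D_succ m 0
    rw [h6]
    have h7 : m 1 * ((12 / a + 1) * (m 1 + δ)) ^ 3 + K * b ^ 4 * (m 2 - m 1) ≤ B := by
      rw [hB]
      have e1 : (12 / a + 1) * (m 1 + δ) ≤ (12 / a + 1) * (x + η + δ) :=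
        mul_le_mul_of_nonneg_left (by linarith) (by positivity)
      have e2 := pow_le_pow_left₀ (by positivity) e1 3
      have e3 : m 1 * ((12 / a + 1) * (m 1 + δ)) ^ 3 ≤
          (x + η) * ((12 / a + 1) * (x + η + δ)) ^ 3 :=
        mul_le_mul (by linarith) e2 (by positivity) (by linarith)
      have e4 : K * b ^ 4 * (m 2 - m 1) ≤ K * b ^ 4 * η :=
        mul_le_mul_of_nonneg_left h12 (by positivity)
      linarith
    have h8 := mul_le_mul_of_nonneg_left h7 (show 0 ≤ m 2 - m 1 by linarith)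
    have h9 : B * (x + η - m 1) = (m 2 - m 1) * B + B * (x + η - m 2) := by ring
    linarith

/-- The Parisi functional with the exponents at least `x`: the cost is at most `C x⁵`. -/
theorem exp_ge5 {b : ℝ} (hb1 : 1 ≤ b) : ∃ C : ℝ, 0 ≤ C ∧ ∀ x : ℝ, 0 < x → x ≤ 1 →
    ∀ (k : ℕ) (m q : ℕ → ℝ), Exponents k m → Path k q → q k ≤ 1 → ∀ e > 0,
      ∃ (k' : ℕ) (m' r' : ℕ → ℝ), Exponents k' m' ∧ x ≤ m' 1 ∧ BPath b k' r' ∧
        SKr b k' m' r' ≤ SKpar b k m q + C * x ^ 5 + e := by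
  have hb : 0 < b := by linarith
  obtain ⟨K, hK, htilt⟩ := Rf_tilt (b ^ 2)
  obtain ⟨a, ha, hM1⟩ := sx_M1f (S := b ^ 2) (by positivity)
  refine ⟨2 * (54 * (12 / a + 1) ^ 3 + K * b ^ 4), by positivity, ?_⟩
  intro x hx hx1 k m q hm hq hq1 e he
  obtain ⟨η₀, hη₀, hfirst⟩ := gap5_first hb (δ := x ^ 2) (by positivity)
  set η := min (x ^ 4) (min (e / b ^ 2) (2 * η₀ / (K + 1))) with hη
  have hη0 : 0 < η := lt_min (by positivity) (lt_min (by positivity) (by positivity))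
  have hηx4 : η ≤ x ^ 4 := min_le_left _ _
  have hx4 : x ^ 4 ≤ x := pow_le_of_le_one hx.le hx1 (by norm_num)
  have hηx : η ≤ x := hηx4.trans hx4
  have hηe : η * b ^ 2 ≤ e := by
    have := (min_le_right (x ^ 4) (min (e / b ^ 2) (2 * η₀ / (K + 1)))).trans (min_le_left _ _)
    rw [← hη, le_div_iff₀ (by positivity)] at this
    exact this
  have hKη : K * η ≤ 2 * η₀ := by
    have := (min_le_right (x ^ 4) (min (e / b ^ 2) (2 * η₀ / (K + 1)))).trans (min_le_right _ _)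
    rw [← hη, le_div_iff₀ (by positivity)] at this
    linarith
  obtain ⟨k₁, m₁, q₁, hm₁, hmesh, hq₁, hq₁1, heq⟩ := refine_exp (b := b) hm hq hq1 hη0
  obtain ⟨r, hr, hrle⟩ := zero_start hb hm₁ hq₁ hq₁1
  have hm11 : m₁ 1 ≤ η := by
    have h1 := hmesh 0 (by omega)
    rw [hm₁.1] at h1
    simpa using h1
  have hP : MinbP b k₁ (minbExt b k₁ r) := minb_ext_P hr
  obtain ⟨k', m', R', h1, h2, h3, h4⟩ := gap5_iter hb1 hK ha hx htilt hM1 (hfirst K hK htilt)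
    hx hx1 hη0 hKη k₁ m₁ hm₁ (fun l _ h => hmesh l h) (by linarith) _ hP
  refine ⟨k', m', R', h1, h2, h3.bpath, ?_⟩
  rw [minb_SKr_eq h1 h3]
  have h5 : SKr b k₁ m₁ r = SKr b k₁ m₁ (minbExt b k₁ r) :=
    minb_SKr_congr fun l hl => by simp [minbExt, hl]
  rw [h5, minb_SKr_eq hm₁ hP, heq] at hrle
  have hm1pos : 0 < m₁ 1 := by
    have := hm₁.2.2 0 (by omega)
    rwa [hm₁.1] at this
  have h6 : m₁ 1 * b ^ 2 ≤ e :=
    (mul_le_mul_of_nonneg_right hm11 (by positivity)).trans hηe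
  have h7 : ((x + η) * ((12 / a + 1) * (x + η + x)) ^ 3 + K * b ^ 4 * η) * (x + η - m₁ 1) ≤
      2 * (54 * (12 / a + 1) ^ 3 + K * b ^ 4) * x ^ 5 := by
    have a0 : (x + η) * ((12 / a + 1) * (x + η + x)) ^ 3 ≤ (2 * x) * ((12 / a + 1) * (3 * x)) ^ 3 := by
      refine mul_le_mul (by linarith) ?_ (by positivity) (by positivity)
      refine pow_le_pow_left₀ (by positivity) ?_ 3
      exact mul_le_mul_of_nonneg_left (by linarith) (by positivity)
    have a1 : K * b ^ 4 * η ≤ K * b ^ 4 * x ^ 4 := mul_le_mul_of_nonneg_left hηx4 (by positivity)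
    have a2 : (x + η) * ((12 / a + 1) * (x + η + x)) ^ 3 + K * b ^ 4 * η ≤
        (54 * (12 / a + 1) ^ 3 + K * b ^ 4) * x ^ 4 := by
      have : (2 * x) * ((12 / a + 1) * (3 * x)) ^ 3 = 54 * (12 / a + 1) ^ 3 * x ^ 4 := by ring
      rw [this] at a0
      linarith
    calc _ ≤ ((54 * (12 / a + 1) ^ 3 + K * b ^ 4) * x ^ 4) * (2 * x) :=
          mul_le_mul a2 (by linarith) (by linarith) (by positivity)
      _ = _ := by ring
  linarith

/-- The same statement for the functional of the overlaps. -/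
theorem exp_ge5_par {b : ℝ} (hb1 : 1 ≤ b) : ∃ C : ℝ, 0 ≤ C ∧ ∀ x : ℝ, 0 < x → x ≤ 1 →
    ∀ (k : ℕ) (m q : ℕ → ℝ), Exponents k m → Path k q → q k ≤ 1 → ∀ e > 0,
      ∃ (k' : ℕ) (m' q' : ℕ → ℝ), Exponents k' m' ∧ x ≤ m' 1 ∧ Path k' q' ∧ q' 0 = 0 ∧
        q' k' ≤ 1 ∧ SKpar b k' m' q' ≤ SKpar b k m q + C * x ^ 5 + e := by
  have hb : 0 < b := by linarith
  obtain ⟨C, hC, h⟩ := exp_ge5 hb1
  refine ⟨C, hC, fun x hx hx1 k m q hm hq hq1 e he => ?_⟩
  obtain ⟨k', m', r', h1, h2, ⟨h3, h4, h5⟩, h6⟩ := h x hx hx1 k m q hm hq hq1 e he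
  refine ⟨k', m', fun l => r' l / b ^ 2, h1, h2, ⟨?_, fun l hl => ?_⟩, ?_, ?_, ?_⟩
  · exact div_nonneg h4.1 (by positivity)
  · exact div_le_div_of_nonneg_right (h4.2 l hl) (by positivity)
  · simp only [h3, zero_div]
  · simp only []
    rw [div_le_one (by positivity)]; exact h5
  · rw [gap2_SKr_eq hb]; exact h6

end Vale.Agent.P146.Pw2
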