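import Vale.Agent.P146.Sx.Inv
import Vale.Agent.P146.Pw2.T1Adm
import Vale.Agent.P146.Pw2.T1Split

/-!
# P146 / Sx: lower bound of the derivative of `M` along the first block

`M' τ ≥ a τ - 2 g` with a constant `a > 0` which depends only on the total variance.
-/

set_option linter.all false

open MeasureTheory ProbabilityTheory Filter Topology Set

namespace Vale.Agent.P146.Pw2

open Vale.Agent.P157.Par
open Vale.Agent.P146.Gap

/-- a function with a nonnegative derivative -/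
lemma sx_mono {v : ℝ} {f f' : ℝ → ℝ} (hc : ContinuousOn f (Icc 0 v))
    (hd : ∀ τ ∈ Ioo 0 v, HasDerivAt f (f' τ) τ) (h0 : ∀ τ ∈ Ioo 0 v, 0 ≤ f' τ) {τ : ℝ}
    (hτ : τ ∈ Icc 0 v) : f 0 ≤ f τ := by
  have hm : MonotoneOn f (Icc 0 v) := by
    refine monotoneOn_of_deriv_nonneg (convex_Icc 0 v) hc ?_ ?_
    · rw [interior_Icc]
      exact fun τ hτ => (hd τ hτ).differentiableAt.differentiableWithinAt
    · rw [interior_Icc]
      intro τ hτ
      rw [(hd τ hτ).deriv]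
      exact h0 τ hτ
  exact hm ⟨le_rfl, hτ.1.trans hτ.2⟩ hτ hτ.1

lemma sx_tmono {C : ℝ} {F : ℝ → ℝ} (h : Adm C F) {ψ φ : ℝ → ℝ} (hψ : Sp7Cb ψ) (hφ : Sp7Cb φ)
    (hle : ∀ x, ψ x ≤ φ x) (m s y : ℝ) : tlt m s F ψ y ≤ tlt m s F φ y := by
  obtain ⟨c1, K1, k1⟩ := hψ
  obtain ⟨c2, K2, k2⟩ := hφ
  exact (minb_ec h).sm.tlt_mono c1 k1 c2 k2 hle m s y

lemma sx_tconst {C : ℝ} {F : ℝ → ℝ} (h : Adm C F) (m s c y : ℝ) :
    tlt m s F (fun _ => c) y = c := (minb_ec h).sm.tlt_const m s c y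

lemma sx_tadd {C : ℝ} {F : ℝ → ℝ} (h : Adm C F) {ψ φ : ℝ → ℝ} (hψ : Sp7Cb ψ) (hφ : Sp7Cb φ)
    (m s y : ℝ) :
    tlt m s F (fun x => ψ x + φ x) y = tlt m s F ψ y + tlt m s F φ y := by
  obtain ⟨c1, K1, k1⟩ := hψ
  obtain ⟨c2, K2, k2⟩ := hφ
  exact (minb_ec h).sm.tlt_add c1 k1 c2 k2 m s y

lemma sx_cb {C : ℝ} {F : ℝ → ℝ} (h : Adm C F) (j : ℕ) : Sp7Cb (iteratedDeriv (j + 1) F) := by
  obtain ⟨B, hB⟩ := h.smb.bd j
  exact ⟨(h.smb.smooth.differentiable_iteratedDeriv (j + 1)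
    (by exact_mod_cast WithTop.coe_lt_top _)).continuous, B, hB⟩

lemma sx_cb_mul {ψ φ : ℝ → ℝ} (hψ : Sp7Cb ψ) (hφ : Sp7Cb φ) : Sp7Cb (fun x => ψ x * φ x) := by
  obtain ⟨c1, K1, k1⟩ := hψ
  obtain ⟨c2, K2, k2⟩ := hφ
  refine ⟨c1.mul c2, K1 * K2, fun x => ?_⟩
  rw [abs_mul]
  exact mul_le_mul (k1 x) (k2 x) (abs_nonneg _) ((abs_nonneg _).trans (k1 x))

lemma sx_cb_smul (c : ℝ) {ψ : ℝ → ℝ} (hψ : Sp7Cb ψ) : Sp7Cb (fun x => c * ψ x) :=
  sx_cb_mul (sp7_cb_const c) hψ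

lemma sx_cb_pow {ψ : ℝ → ℝ} (hψ : Sp7Cb ψ) (k : ℕ) : Sp7Cb (fun x => ψ x ^ k) := by
  induction k with
  | zero => simpa using sp7_cb_const 1
  | succ k ih => simpa [pow_succ] using sx_cb_mul ih hψ

lemma sx_d2_le {C : ℝ} {F : ℝ → ℝ} (h : Adm C F) (x : ℝ) : iteratedDeriv 2 F x ≤ 1 := by
  have := h.le1 x
  nlinarith [sq_nonneg (iteratedDeriv 1 F x)]

lemma sx_four_int (c : ℝ) : Integrable (fun z : ℝ => |z| ^ 4 * Real.exp (c * |z|))
    (gaussianReal 0 1) := by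
  refine ((sp2_integrable_exp_abs (1 + c)).const_mul 24).mono' (by fun_prop)
    (Eventually.of_forall fun z => ?_)
  rw [Real.norm_eq_abs, abs_of_nonneg (by positivity), add_mul, one_mul, Real.exp_add]
  have h1 := Real.pow_div_factorial_le_exp |z| (abs_nonneg z) 4
  have h2 : ((Nat.factorial 4 : ℕ) : ℝ) = 24 := by norm_num [Nat.factorial]
  rw [h2, div_le_iff₀ (by norm_num)] at h1
  calc |z| ^ 4 * Real.exp (c * |z|) ≤ (Real.exp |z| * 24) * Real.exp (c * |z|) :=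
        mul_le_mul_of_nonneg_right h1 (Real.exp_pos _).le
    _ = _ := by ring

/-- The fourth moment of the first derivative. -/
theorem sx_four (S : ℝ) : ∃ A : ℝ, 0 ≤ A ∧ ∀ (C g τ : ℝ) (G : ℝ → ℝ), Adm C G → 0 < g → g ≤ 1 →
    0 ≤ τ → τ ≤ S → tlt g τ G (fun x => iteratedDeriv 1 G x ^ 4) 0 ≤ A * τ ^ 2 := by
  refine ⟨∫ z, |z| ^ 4 * Real.exp (√S * |z|) ∂(gaussianReal 0 1), ?_, ?_⟩
  · exact integral_nonneg fun z => by positivity
  intro C g τ G h hg hg1 hτ hτS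
  set I := ∫ z, |z| ^ 4 * Real.exp (√S * |z|) ∂(gaussianReal 0 1) with hI
  have hE := minb_ec h
  set M := iteratedDeriv 1 G with hM
  set w : ℝ → ℝ := fun y => G y + -(G 0) with hw
  have hw0 : ∀ y, 0 ≤ w y := fun y => by
    have := first_min hE y
    simp only [hw]; linarith
  have hw1 : ∀ y, w y ≤ |y| := fun y => by
    have := hE.sm.lip y 0
    rw [sub_zero, one_mul] at this
    exact (le_abs_self _).trans this
  have hwS : Sm 1 1 w M (iteratedDeriv 2 G) :=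
    ⟨fun x => by simpa [hw] using (hE.d1 x).add_const (-(G 0)), hE.d2, hE.cD, hE.sm.bM, hE.sm.bD⟩
  rw [← sp5_tlt_add_const g τ (-(G 0)) G (fun x => M x ^ 4) 0]
  have hMc : Continuous fun x => M x ^ 4 := hE.sm.cont1.pow 4
  have hMb : ∀ x, |M x ^ 4| ≤ 1 := fun x => by
    rw [abs_pow]
    exact pow_le_one₀ (abs_nonneg _) (hE.abs_M x)
  change (∫ z, M (0 + √τ * z) ^ 4 * Real.exp (g * w (0 + √τ * z)) ∂(gaussianReal 0 1)) /
    (∫ z, Real.exp (g * w (0 + √τ * z)) ∂(gaussianReal 0 1)) ≤ I * τ ^ 2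
  set Z := ∫ z, Real.exp (g * w (0 + √τ * z)) ∂(gaussianReal 0 1) with hZ
  have hZ1 : 1 ≤ Z := by
    have h1 : ∫ _z : ℝ, (1 : ℝ) ∂(gaussianReal 0 1) = 1 := by simp
    rw [← h1, hZ]
    refine integral_mono (integrable_const _) (hwS.integrable_exp g τ 0) fun z => ?_
    exact Real.one_le_exp (mul_nonneg hg.le (hw0 _))
  have hA : ∫ z, M (0 + √τ * z) ^ 4 * Real.exp (g * w (0 + √τ * z)) ∂(gaussianReal 0 1) ≤
      I * τ ^ 2 := by
    have h1 : I * τ ^ 2 = ∫ z, τ ^ 2 * (|z| ^ 4 * Real.exp (√S * |z|)) ∂(gaussianReal 0 1) := by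
      rw [integral_const_mul]; ring
    rw [h1]
    refine integral_mono (hwS.integrable hMc hMb g τ 0) ((sx_four_int _).const_mul _) fun z => ?_
    simp only [zero_add]
    set y := √τ * z with hy
    have k6 : M y ^ 2 ≤ y ^ 2 := first_M_le hE y
    have k7 : |y| = √τ * |z| := by rw [hy, abs_mul, abs_of_nonneg (Real.sqrt_nonneg τ)]
    have k8 : √τ ≤ √S := Real.sqrt_le_sqrt hτS
    have k4 : Real.exp (g * w y) ≤ Real.exp (√S * |z|) := by
      apply Real.exp_le_exp.2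
      have h2 := hw0 y
      have h3 := hw1 y
      have h4 : √τ * |z| ≤ √S * |z| := mul_le_mul_of_nonneg_right k8 (abs_nonneg _)
      rw [← k7] at h4
      have h5 : g * w y ≤ 1 * w y := mul_le_mul_of_nonneg_right hg1 h2
      linarith
    have k5 : M y ^ 4 ≤ τ ^ 2 * |z| ^ 4 := by
      have h2 : M y ^ 4 ≤ (y ^ 2) ^ 2 := by
        have : M y ^ 4 = (M y ^ 2) ^ 2 := by ring
        rw [this]
        exact pow_le_pow_left₀ (sq_nonneg _) k6 2
      have h3 : (y ^ 2) ^ 2 = τ ^ 2 * |z| ^ 4 := by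
        have : y ^ 2 = τ * |z| ^ 2 := by
          rw [hy, mul_pow, Real.sq_sqrt hτ, sq_abs]
        rw [this]; ring
      rwa [h3] at h2
    calc M y ^ 4 * Real.exp (g * w y) ≤ (τ ^ 2 * |z| ^ 4) * Real.exp (√S * |z|) :=
          mul_le_mul k5 k4 (Real.exp_pos _).le (by positivity)
      _ = _ := by ring
  have hN0 : 0 ≤ I * τ ^ 2 := mul_nonneg (integral_nonneg fun z => by positivity) (sq_nonneg _)
  calc _ ≤ I * τ ^ 2 / Z := div_le_div_of_nonneg_right hA (by linarith)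
    _ ≤ I * τ ^ 2 := div_le_self hN0 hZ1

/-- Pointwise lower bound of the square of the third derivative. -/
theorem sx_third {K c : ℝ} {G : ℝ → ℝ} (h : AK K G) (hK : 1 ≤ K) (hc : 0 < c)
    (hb : ∀ x, 0 ≤ bet c G x) (x : ℝ) :
    4 * c ^ 2 * (iteratedDeriv 1 G x ^ 2 / (2 * K ^ 2) - 2 * K ^ 2 * iteratedDeriv 1 G x ^ 4) ≤
      iteratedDeriv 3 G x ^ 2 := by
  have hA := h.adm
  -- reduction to the half line
  have main : ∀ x, 0 ≤ x →
      4 * c ^ 2 * (iteratedDeriv 1 G x ^ 2 / (2 * K ^ 2) - 2 * K ^ 2 * iteratedDeriv 1 G x ^ 4) ≤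
      iteratedDeriv 3 G x ^ 2 := by
    intro x hx
    have h1 := inv_d3 hA hb hx
    have h0 : 0 ≤ iteratedDeriv 1 G x :=
      GoodX.good_mono (fun x => GoodX.good_hd hA.smb.smooth 1 x)
        (GoodX.good_odd hA.even (j := 1) (by decide)) (fun y _ => (hA.pos y).le) hx
    -- lower bound of the second derivative
    have h2 : 0 ≤ iteratedDeriv 2 G x + K * iteratedDeriv 1 G x - iteratedDeriv 2 G 0 := by
      refine GoodX.good_mono (φ := fun x => iteratedDeriv 2 G x + K * iteratedDeriv 1 G x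
        - iteratedDeriv 2 G 0) (φ' := fun x => iteratedDeriv 3 G x + K * iteratedDeriv 2 G x)
        (fun y => ((GoodX.good_hd hA.smb.smooth 2 y).add
          ((GoodX.good_hd hA.smb.smooth 1 y).const_mul K)).sub_const _) ?_ ?_ hx
      · rw [GoodX.good_odd hA.even (j := 1) (by decide)]; ring
      · intro y _
        have := (abs_le.1 (hA.r3 y)).1
        linarith
    have h3 : 1 / K ≤ iteratedDeriv 2 G 0 := by
      rw [div_le_iff₀ (by linarith)]
      have := h.low0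
      linarith
    have h4 : 0 < iteratedDeriv 2 G x := hA.pos x
    obtain ⟨p, hp⟩ : ∃ p, p = iteratedDeriv 1 G x := ⟨_, rfl⟩
    obtain ⟨u, hu⟩ : ∃ u, u = iteratedDeriv 2 G x := ⟨_, rfl⟩
    obtain ⟨t, ht⟩ : ∃ t, t = iteratedDeriv 3 G x := ⟨_, rfl⟩
    rw [← hp, ← hu, ← ht] at h1
    rw [← hp] at h0
    rw [← hp, ← hu] at h2
    rw [← hu] at h4
    rw [← hp, ← ht]
    have hKpos : 0 < K := by linarith
    have k1 : 1 / K - K * p ≤ u := by linarith
    -- `u² ≥ 1/K² - 2 p`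
    have k2 : 1 / K ^ 2 - 2 * p ≤ u ^ 2 := by
      rcases le_total 0 (1 / K - K * p) with h5 | h5
      · have h6 := pow_le_pow_left₀ h5 k1 2
        have h7 : (1 / K - K * p) ^ 2 = 1 / K ^ 2 - 2 * p + K ^ 2 * p ^ 2 := by
          field_simp
          ring
        rw [h7] at h6
        have : 0 ≤ K ^ 2 * p ^ 2 := by positivity
        linarith
      · have h6 : 1 / K ^ 2 ≤ p := by
          have h7 : 1 / K ≤ K * p := by linarith
          have h8 : 1 / K ^ 2 = 1 / K * (1 / K) := by field_simp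
          rw [h8]
          have h9 : 1 / K * (1 / K) ≤ 1 / K * (K * p) :=
            mul_le_mul_of_nonneg_left h7 (by positivity)
          have h10 : 1 / K * (K * p) = p := by field_simp
          linarith
        have : 0 ≤ u ^ 2 := sq_nonneg _
        linarith
    -- `p² u² ≥ p²/(2K²) - 2K² p⁴`
    have k3 : p ^ 2 / (2 * K ^ 2) - 2 * K ^ 2 * p ^ 4 ≤ p ^ 2 * u ^ 2 := by
      have h5 : p ^ 2 * (1 / K ^ 2 - 2 * p) ≤ p ^ 2 * u ^ 2 :=
        mul_le_mul_of_nonneg_left k2 (sq_nonneg _)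
      have h6 : 2 * p ≤ 1 / (2 * K ^ 2) + 2 * K ^ 2 * p ^ 2 := by
        have h7 : 0 ≤ (1 / (2 * K) * 1 - K * p) ^ 2 := sq_nonneg _
        have h8 : (1 / (2 * K) * 1 - K * p) ^ 2 = 1 / (4 * K ^ 2) - p + K ^ 2 * p ^ 2 := by
          field_simp
          ring
        rw [h8] at h7
        have h9 : 1 / (4 * K ^ 2) * 2 = 1 / (2 * K ^ 2) := by field_simp; norm_num
        nlinarith
      have h7 : p ^ 2 * (2 * p) ≤ p ^ 2 * (1 / (2 * K ^ 2) + 2 * K ^ 2 * p ^ 2) :=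
        mul_le_mul_of_nonneg_left h6 (sq_nonneg _)
      have h8 : p ^ 2 * (1 / K ^ 2 - 2 * p) = p ^ 2 / K ^ 2 - p ^ 2 * (2 * p) := by ring
      have h9 : p ^ 2 * (1 / (2 * K ^ 2) + 2 * K ^ 2 * p ^ 2) =
          p ^ 2 / (2 * K ^ 2) + 2 * K ^ 2 * p ^ 4 := by ring
      have h10 : p ^ 2 / K ^ 2 = p ^ 2 / (2 * K ^ 2) + p ^ 2 / (2 * K ^ 2) := by
        field_simp; ring
      linarith
    have k4 : (2 * c * p * u) ^ 2 ≤ t ^ 2 := by
      have h5 : 0 ≤ 2 * c * p * u := by positivity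
      have h6 : 2 * c * p * u ≤ -t := by linarith
      have h7 := pow_le_pow_left₀ h5 h6 2
      have h8 : (-t) ^ 2 = t ^ 2 := by ring
      rwa [h8] at h7
    calc 4 * c ^ 2 * (p ^ 2 / (2 * K ^ 2) - 2 * K ^ 2 * p ^ 4) ≤ 4 * c ^ 2 * (p ^ 2 * u ^ 2) :=
          mul_le_mul_of_nonneg_left k3 (by positivity)
      _ = (2 * c * p * u) ^ 2 := by ring
      _ ≤ t ^ 2 := k4
  rcases le_total 0 x with hx | hx
  · exact main x hx
  · have h1 := main (-x) (by linarith)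
    have e : ∀ j, iteratedDeriv j G (-x) = (-1) ^ j * iteratedDeriv j G x := by
      intro j
      have h3 := iteratedDeriv_comp_neg j G x
      have h4 : (fun x => G (-x)) = G := funext hA.even
      rw [h4] at h3
      rw [h3, smul_eq_mul, ← mul_assoc, ← mul_pow]
      simp
    rw [e 1, e 3] at h1
    have e1 : ((-1) ^ 1 * iteratedDeriv 1 G x) ^ 2 = iteratedDeriv 1 G x ^ 2 := by ring
    have e2 : ((-1) ^ 1 * iteratedDeriv 1 G x) ^ 4 = iteratedDeriv 1 G x ^ 4 := by ring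
    have e3 : ((-1) ^ 3 * iteratedDeriv 3 G x) ^ 2 = iteratedDeriv 3 G x ^ 2 := by ring
    rw [e1, e2, e3] at h1
    exact h1

end Vale.Agent.P146.Pw2
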