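import Vale.Agent.P146.Sx.Low3
import Vale.Agent.P146.Gap.GapN

/-!
# P146 / Sx: the length of the first block
-/

set_option linter.all false

open MeasureTheory ProbabilityTheory Filter Topology Set

namespace Vale.Agent.P146.Pw2

open Vale.Agent.P157.Par
open Vale.Agent.P146.Gap

/-- First lower bound of `M'`. -/
theorem sx_M1a {S : ℝ} (hS : 0 ≤ S) : ∃ a₁ a₂ : ℝ, 0 < a₁ ∧ 0 ≤ a₂ ∧
    ∀ (g g' C s s₁ : ℝ) (F : ℝ → ℝ), Good g' C F → AKs s F → 0 ≤ s → 0 < g → g ≤ g' → g' ≤ 1 →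
      0 < s₁ → s + s₁ ≤ S → (∀ x, 0 ≤ bet (Real.exp (-(2 * s))) F x) →
      ∀ τ ∈ Ioo 0 s₁, a₁ * τ - a₂ * τ ^ 2 - 2 * g ≤ M1f g s₁ F τ := by
  obtain ⟨K, hK1, hK⟩ := AKs.ak S
  obtain ⟨A, hA0, hA⟩ := sx_four S
  have hK0 : 0 < K := by linarith
  set c : ℝ := Real.exp (-(2 * S)) with hc
  have hc0 : 0 < c := Real.exp_pos _
  refine ⟨4 * c ^ 2 / (2 * K ^ 2) * (Real.exp (-(2 * S)) * (1 / K) ^ 2),
    8 * c ^ 2 * K ^ 2 * A, by positivity, by positivity, ?_⟩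
  intro g g' C s s₁ F hF hFs hs hg hgg hg'1 hs₁ hsS hinv τ hτ
  have hg1 : g ≤ 1 := hgg.trans hg'1
  have hτ' : 0 ≤ s₁ - τ := by linarith [hτ.2]
  have hτS : τ ≤ S := by linarith [hτ.2]
  set G := gstep g (s₁ - τ) F with hG
  have hGA : AKs (s + (s₁ - τ)) G := hFs.step hs hg hg1 hτ'
  have hGK : AK K G := hK _ _ (by linarith) (by linarith [hτ.1]) hGA
  have hGadm := hGK.adm
  have hGb : ∀ x, 0 ≤ bet c G x := by
    have h1 := inv_good (c := Real.exp (-(2 * s))) hF (Real.exp_pos _)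
      (Real.exp_le_one_iff.2 (by linarith)) hinv hg hgg hg'1 hτ'
    refine inv_mono hGadm ?_ h1
    rw [hc, ← Real.exp_add]
    apply Real.exp_le_exp.2
    linarith [hτ.1]
  have h3 := sx_third hGK hK1 hc0 hGb
  have b1 := sx_cb hGadm 0
  have b2 := sx_cb hGadm 1
  have b3 := sx_cb hGadm 2
  have hle : ∀ x, 4 * c ^ 2 / (2 * K ^ 2) * iteratedDeriv 1 G x ^ 2
      + (-(8 * c ^ 2 * K ^ 2)) * iteratedDeriv 1 G x ^ 4 + -(2 * g) ≤
      iteratedDeriv 3 G x ^ 2 - 2 * g * iteratedDeriv 2 G x ^ 3 := by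
    intro x
    have k1 := h3 x
    have k2 : 4 * c ^ 2 * (iteratedDeriv 1 G x ^ 2 / (2 * K ^ 2) - 2 * K ^ 2 *
        iteratedDeriv 1 G x ^ 4) = 4 * c ^ 2 / (2 * K ^ 2) * iteratedDeriv 1 G x ^ 2
      + (-(8 * c ^ 2 * K ^ 2)) * iteratedDeriv 1 G x ^ 4 := by ring
    rw [k2] at k1
    have k3 := hGadm.pos x
    have k4 := sx_d2_le hGadm x
    have k5 : iteratedDeriv 2 G x ^ 3 ≤ 1 := pow_le_one₀ k3.le k4
    have k6 : 2 * g * iteratedDeriv 2 G x ^ 3 ≤ 2 * g * 1 :=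
      mul_le_mul_of_nonneg_left k5 (by linarith)
    linarith
  have q1 : Sp7Cb (fun x => 4 * c ^ 2 / (2 * K ^ 2) * iteratedDeriv 1 G x ^ 2) :=
    sx_cb_smul _ (sx_cb_pow b1 2)
  have q2 : Sp7Cb (fun x => (-(8 * c ^ 2 * K ^ 2)) * iteratedDeriv 1 G x ^ 4) :=
    sx_cb_smul _ (sx_cb_pow b1 4)
  have q3 : Sp7Cb (fun _ : ℝ => -(2 * g)) := sp7_cb_const _
  have q4 : Sp7Cb (fun x => iteratedDeriv 3 G x ^ 2 - 2 * g * iteratedDeriv 2 G x ^ 3) := by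
    have := sp7_cb_add (sx_cb_pow b3 2) (sx_cb_smul (-(2 * g)) (sx_cb_pow b2 3))
    have e : (fun x => iteratedDeriv 3 G x ^ 2 - 2 * g * iteratedDeriv 2 G x ^ 3) =
        fun x => iteratedDeriv (2 + 1) G x ^ 2 + -(2 * g) * iteratedDeriv (1 + 1) G x ^ 3 := by
      funext x
      ring
    rw [e]
    exact this
  have h4 := sx_tmono hGadm (sp7_cb_add (sp7_cb_add q1 q2) q3) q4 hle g τ 0
  rw [sx_tadd hGadm (sp7_cb_add q1 q2) q3, sx_tadd hGadm q1 q2, tlt_const_mul, tlt_const_mul,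
    sx_tconst hGadm] at h4
  have h5 : tlt g τ G (fun x => iteratedDeriv 3 G x ^ 2 - 2 * g * iteratedDeriv 2 G x ^ 3) 0 =
      M1f g s₁ F τ := rfl
  rw [h5] at h4
  -- the second moment
  have hsum : gstep g τ G = gstep g s₁ F := by
    rw [hG, gstep_add hF.adm hg hτ.1.le hτ']
    congr 1
    ring
  have hlast : AK K (gstep g s₁ F) := hK _ _ (by linarith) hsS (hFs.step hs hg hg1 hs₁.le)
  have h6 : Real.exp (-(2 * S)) * (1 / K) ^ 2 * τ ≤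
      tlt g τ G (fun x => iteratedDeriv 1 G x ^ 2) 0 := by
    have k1 := split_Rf_low hGadm hg hg1 hτ.1
    have k2 : Rf g g τ G τ = tlt g τ G (fun x => iteratedDeriv 1 G x ^ 2) 0 := by
      unfold Rf
      rw [sub_self, gstep_zero hg.ne']
    rw [k2, hsum] at k1
    refine le_trans (mul_le_mul_of_nonneg_right ?_ hτ.1.le) k1
    have k3 : 1 / K ≤ iteratedDeriv 2 (gstep g s₁ F) 0 := by
      rw [div_le_iff₀ hK0]
      linarith [hlast.low0]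
    have k4 : (1 / K) ^ 2 ≤ iteratedDeriv 2 (gstep g s₁ F) 0 ^ 2 :=
      pow_le_pow_left₀ (by positivity) k3 2
    refine mul_le_mul (Real.exp_le_exp.2 ?_) k4 (by positivity) (Real.exp_pos _).le
    have : g * τ ≤ 1 * S := mul_le_mul hg1 hτS hτ.1.le zero_le_one
    linarith
  have h7 := hA _ g τ G hGadm hg hg1 hτ.1.le hτS
  have h8 : 4 * c ^ 2 / (2 * K ^ 2) * (Real.exp (-(2 * S)) * (1 / K) ^ 2 * τ) ≤
      4 * c ^ 2 / (2 * K ^ 2) * tlt g τ G (fun x => iteratedDeriv 1 G x ^ 2) 0 :=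
    mul_le_mul_of_nonneg_left h6 (by positivity)
  have h9 : 8 * c ^ 2 * K ^ 2 * tlt g τ G (fun x => iteratedDeriv 1 G x ^ 4) 0 ≤
      8 * c ^ 2 * K ^ 2 * (A * τ ^ 2) := mul_le_mul_of_nonneg_left h7 (by positivity)
  linarith

/-- `M' τ ≥ a τ - 2 g`. -/
theorem sx_M1f {S : ℝ} (hS : 0 ≤ S) : ∃ a : ℝ, 0 < a ∧
    ∀ (g g' C s s₁ : ℝ) (F : ℝ → ℝ), Good g' C F → AKs s F → 0 ≤ s → 0 < g → g ≤ g' → g' ≤ 1 →
      0 < s₁ → s + s₁ ≤ S → (∀ x, 0 ≤ bet (Real.exp (-(2 * s))) F x) →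
      ∀ τ ∈ Ioo 0 s₁, a * τ - 2 * g ≤ M1f g s₁ F τ := by
  obtain ⟨a₁, a₂, h1, h2, h⟩ := sx_M1a hS
  set τ₀ : ℝ := a₁ / (2 * (a₂ + 1)) with hτ₀
  have hτ₀0 : 0 < τ₀ := by positivity
  refine ⟨a₁ / 2 * min 1 (τ₀ / (S + 1)), by positivity, ?_⟩
  intro g g' C s s₁ F hF hFs hs hg hgg hg'1 hs₁ hsS hinv τ hτ
  have hg1 : g ≤ 1 := hgg.trans hg'1
  have key := h g g' C s s₁ F hF hFs hs hg hgg hg'1 hs₁ hsS hinv
  have hmono : MonotoneOn (M1f g s₁ F) (Ioo 0 s₁) := by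
    refine monotoneOn_of_deriv_nonneg (convex_Ioo _ _)
      (fun t ht => (M1f_hasDerivAt hF.adm hg hg1 ht).continuousAt.continuousWithinAt) ?_ ?_
    · rw [interior_Ioo]
      exact fun t ht => (M1f_hasDerivAt hF.adm hg hg1 ht).differentiableAt.differentiableWithinAt
    · rw [interior_Ioo]
      intro t ht
      rw [(M1f_hasDerivAt hF.adm hg hg1 ht).deriv]
      exact gapn_M2f_nonneg hF hg hgg hg'1 ht
  set t := min τ τ₀ with ht
  have ht0 : 0 < t := lt_min hτ.1 hτ₀0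
  have htτ : t ≤ τ := min_le_left _ _
  have htτ₀ : t ≤ τ₀ := min_le_right _ _
  have k1 := hmono ⟨ht0, htτ.trans_lt hτ.2⟩ hτ htτ
  have k2 := key t ⟨ht0, htτ.trans_lt hτ.2⟩
  have k3 : a₂ * t ^ 2 ≤ a₁ / 2 * t := by
    have e1 : a₂ * t ≤ a₁ / 2 := by
      have e2 : a₂ * t ≤ (a₂ + 1) * τ₀ := mul_le_mul (by linarith) htτ₀ ht0.le (by linarith)
      have e3 : (a₂ + 1) * τ₀ = a₁ / 2 := by
        rw [hτ₀]; field_simp
      linarith
    have := mul_le_mul_of_nonneg_right e1 ht0.le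
    nlinarith
  have hτS : τ ≤ S + 1 := by linarith [hτ.2]
  have k4 : min 1 (τ₀ / (S + 1)) * τ ≤ t := by
    refine le_min ?_ ?_
    · have := mul_le_mul_of_nonneg_right (min_le_left 1 (τ₀ / (S + 1))) hτ.1.le
      linarith
    · have e1 := mul_le_mul_of_nonneg_right (min_le_right 1 (τ₀ / (S + 1))) hτ.1.le
      refine e1.trans ?_
      rw [div_mul_eq_mul_div, div_le_iff₀ (by linarith)]
      exact mul_le_mul_of_nonneg_left hτS hτ₀0.le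
  have k5 : a₁ / 2 * (min 1 (τ₀ / (S + 1)) * τ) ≤ a₁ / 2 * t :=
    mul_le_mul_of_nonneg_left k4 (by positivity)
  nlinarith

/-- The length of the first block. -/
theorem sx_len {a g s₁ b δ C : ℝ} {F : ℝ → ℝ} (h : Adm C F) (hg : 0 < g) (hg1 : g ≤ 1)
    (hs : 0 < s₁) (h1 : ∀ τ ∈ Ioo 0 s₁, a * τ - 2 * g ≤ M1f g s₁ F τ)
    (h0 : (1 - δ) / b ^ 2 ≤ Mf g s₁ F 0) (hend : Rf g g s₁ F s₁ ≤ s₁ / b ^ 2) :
    a * s₁ ^ 2 / 6 ≤ δ / b ^ 2 + g * s₁ := by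
  have hM : ∀ τ ∈ Icc 0 s₁, Mf g s₁ F 0 + a * τ ^ 2 / 2 - 2 * g * τ ≤ Mf g s₁ F τ := by
    intro τ hτ
    have k1 := sx_mono (v := s₁) (f := fun τ => Mf g s₁ F τ - (a * τ ^ 2 / 2 - 2 * g * τ))
      (f' := fun τ => M1f g s₁ F τ - (a * τ - 2 * g))
      ((Mf_cont h hg hg1).sub (by fun_prop)) (fun t ht => ?_)
      (fun t ht => by linarith [h1 t ht]) hτ
    · have e : a * (0 : ℝ) ^ 2 / 2 - 2 * g * 0 = 0 := by ring
      rw [e] at k1
      linarith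
    · refine (Mf_hasDerivAt h hg hg1 ht).sub ?_
      have e1 : HasDerivAt (fun τ : ℝ => a * τ ^ 2 / 2) (a * t) t := by
        refine (((hasDerivAt_pow 2 t).const_mul a).div_const 2).congr_deriv ?_
        simp only [Nat.cast_ofNat, Nat.reduceSub, pow_one]
        ring
      have e2 : HasDerivAt (fun τ : ℝ => 2 * g * τ) (2 * g) t := by
        simpa using (hasDerivAt_id t).const_mul (2 * g)
      exact e1.sub e2
  have hR := sx_mono (v := s₁)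
    (f := fun τ => Rf g g s₁ F τ - (Mf g s₁ F 0 * τ + a * τ ^ 3 / 6 - g * τ ^ 2))
    (f' := fun τ => Mf g s₁ F τ - (Mf g s₁ F 0 + a * τ ^ 2 / 2 - 2 * g * τ))
    ((Rf_cont h hg hg1 hg hg1).sub (by fun_prop)) (fun t ht => ?_)
    (fun t ht => by linarith [hM t ⟨ht.1.le, ht.2.le⟩]) (τ := s₁) ⟨hs.le, le_rfl⟩
  · rw [Rf_zero h hg hg1 g hs.le] at hR
    have e : (0 : ℝ) - (Mf g s₁ F 0 * 0 + a * (0 : ℝ) ^ 3 / 6 - g * 0 ^ 2) = 0 := by ring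
    rw [e] at hR
    have k1 : (1 - δ) / b ^ 2 * s₁ ≤ Mf g s₁ F 0 * s₁ := mul_le_mul_of_nonneg_right h0 hs.le
    have k2 : (a * s₁ ^ 2 / 6) * s₁ ≤ (δ / b ^ 2 + g * s₁) * s₁ := by
      have e1 : (1 - δ) / b ^ 2 * s₁ = s₁ / b ^ 2 - δ / b ^ 2 * s₁ := by ring
      rw [e1] at k1
      nlinarith
    exact le_of_mul_le_mul_right k2 hs
  · refine (Rf_hasDerivAt h hg hg1 ht).sub ?_
    have e1 : HasDerivAt (fun τ : ℝ => Mf g s₁ F 0 * τ) (Mf g s₁ F 0) t := by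
      simpa using (hasDerivAt_id t).const_mul (Mf g s₁ F 0)
    have e2 : HasDerivAt (fun τ : ℝ => a * τ ^ 3 / 6) (a * t ^ 2 / 2) t := by
      refine (((hasDerivAt_pow 3 t).const_mul a).div_const 6).congr_deriv ?_
      simp only [Nat.cast_ofNat, Nat.reduceSub]
      ring
    have e3 : HasDerivAt (fun τ : ℝ => g * τ ^ 2) (2 * g * t) t := by
      refine ((hasDerivAt_pow 2 t).const_mul g).congr_deriv ?_
      simp only [Nat.cast_ofNat, Nat.reduceSub, pow_one]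
      ring
    exact (e1.add e2).sub e3

end Vale.Agent.P146.Pw2
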